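import Vale.Agent.P297.H279.Fam
import Vale.Agent.P297.H637.BL2
import Mathlib.Algebra.DualNumber

/-!
Values and first order deformations of the polynomials of the family.
-/

set_option linter.unusedSectionVars false
set_option linter.style.haveILetI false
set_option linter.unusedSimpArgs false

open Polynomial

namespace Vale.Agent.P297.H279

open Vale.Agent.P297 Vale.Agent.P297.H288 Vale.Agent.P297.H637 Vale.Agent.P297.H72

section values

variable {N N₁ : Type} [Field N] [Algebra ℂ N] [Field N₁] [Algebra ℂ N₁] [Algebra N N₁]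
  [IsScalarTower ℂ N N₁] {Q : H72.Plc N N₁} {P : Par}

/-- the first projection -/
noncomputable def vfst (Q : H72.Plc N N₁) : valAlg Q →ₐ[ℂ] N₁ :=
  (AlgHom.fst ℂ N₁ N).comp (valAlg Q).val

/-- the second projection -/
noncomputable def vsnd (Q : H72.Plc N N₁) : valAlg Q →ₐ[ℂ] N :=
  (AlgHom.snd ℂ N₁ N).comp (valAlg Q).val

theorem val_of_valAlg (w : valAlg Q) : Q.Val (vfst Q w) (vsnd Q w) := w.2

/-- the element of the algebra of the pairs -/
def vmk {x : N₁} {a : N} (h : Q.Val x a) : valAlg Q := ⟨(x, a), h⟩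

theorem vfst_vmk {x : N₁} {a : N} (h : Q.Val x a) : vfst Q (vmk h) = x := rfl

theorem vsnd_vmk {x : N₁} {a : N} (h : Q.Val x a) : vsnd Q (vmk h) = a := rfl

theorem val_fV {s u v : N₁} {s₀ u₀ v₀ : N} (hs : Q.Val s s₀) (hu : Q.Val u u₀) (hv : Q.Val v v₀) :
    Q.Val (fV P s u v) (fV P s₀ u₀ v₀) := by
  have h := val_of_valAlg (fV P (vmk hs) (vmk hu) (vmk hv))
  rwa [map_fV, map_fV] at h

theorem val_fA {c₁ g₁ : Fin 4 → N₁} {c g : Fin 4 → N} {t₁ : N₁} {t : N}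
    (hc : ∀ i, Q.Val (c₁ i) (c i)) (hg : ∀ i, Q.Val (g₁ i) (g i)) (ht : Q.Val t₁ t) :
    Q.Val (fA P c₁ g₁ t₁) (fA P c g t) := by
  have h := val_of_valAlg (fA P (fun i => vmk (hc i)) (fun i => vmk (hg i)) (vmk ht))
  rwa [map_fA, map_fA] at h

theorem val_fB {c₁ g₁ : Fin 4 → N₁} {c g : Fin 4 → N} {t₁ : N₁} {t : N}
    (hc : ∀ i, Q.Val (c₁ i) (c i)) (hg : ∀ i, Q.Val (g₁ i) (g i)) (ht : Q.Val t₁ t) :
    Q.Val (fB P c₁ g₁ t₁) (fB P c g t) := by
  have h := val_of_valAlg (fB P (fun i => vmk (hc i)) (fun i => vmk (hg i)) (vmk ht))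
  rwa [map_fB, map_fB] at h

theorem val_fG1 {c₁ g₁ : Fin 4 → N₁} {c g : Fin 4 → N} {t₁ : N₁} {t : N}
    (hc : ∀ i, Q.Val (c₁ i) (c i)) (hg : ∀ i, Q.Val (g₁ i) (g i)) (ht : Q.Val t₁ t) :
    Q.Val (fG1 P c₁ g₁ t₁) (fG1 P c g t) := by
  have h := val_of_valAlg (fG1 P (fun i => vmk (hc i)) (fun i => vmk (hg i)) (vmk ht))
  rwa [map_fG1, map_fG1] at h

theorem val_fG2 {c₁ g₁ : Fin 4 → N₁} {c g : Fin 4 → N} {t₁ : N₁} {t : N}
    (hc : ∀ i, Q.Val (c₁ i) (c i)) (hg : ∀ i, Q.Val (g₁ i) (g i)) (ht : Q.Val t₁ t) :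
    Q.Val (fG2 P c₁ g₁ t₁) (fG2 P c g t) := by
  have h := val_of_valAlg (fG2 P (fun i => vmk (hc i)) (fun i => vmk (hg i)) (vmk ht))
  rwa [map_fG2, map_fG2] at h

/-- Independent values belong to independent elements. -/
theorem indep_of_val {n : ℕ} {y₁ : Fin n → N₁} {y₀ : Fin n → N} (h : ∀ i, Q.Val (y₁ i) (y₀ i))
    (hi : AlgebraicIndependent ℂ y₀) : AlgebraicIndependent ℂ y₁ := by
  rw [algebraicIndependent_iff]
  intro p hp
  refine (algebraicIndependent_iff.1 hi) p ?_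
  have h1 := val_of_valAlg (MvPolynomial.aeval (fun i => vmk (h i)) p)
  rw [MvPolynomial.comp_aeval_apply, MvPolynomial.comp_aeval_apply] at h1
  have h2 : Q.Val (MvPolynomial.aeval y₁ p) (MvPolynomial.aeval y₀ p) := h1
  rw [hp] at h2
  exact h2.unique Q.val_zero

/-- **A point infinitely near to a generic point is generic.** -/
theorem genS_of_val {y₁ : Fin 4 → N₁} {y₀ : Fin 4 → N} (h0 : GenS P y₀)
    (h : ∀ j, Q.Val (y₁ j) (y₀ j)) (hA : eA P (y₁ 0) (y₁ 1) (y₁ 2) (y₁ 3) = 0)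
    (hB : eB P (y₁ 0) (y₁ 1) (y₁ 2) (y₁ 3) = 0) : GenS P y₁ where
  zA := hA
  zB := hB
  ne := (Q.val_one.add (h 3)).ne_zero h0.ne
  nV := (val_fV (h 0) (h 1) (h 2)).ne_zero h0.nV
  ind := by
    obtain ⟨i, j, hij⟩ := h0.ind
    refine ⟨i, j, indep_of_val (Q := Q) (y₀ := ![y₀ i, y₀ j]) ?_ hij⟩
    intro k
    fin_cases k
    · exact h i
    · exact h j

/-- **Points specialise.** -/
theorem pt_spec {K : Type} [Field K] [Algebra ℂ K] {x₀ : Fin 4 → K} (hx : H288.IsFF P x₀)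
    {y₁ : Fin 4 → N₁} {y₀ : Fin 4 → N} (h0 : GenS P y₀)
    (h : ∀ j, Q.Val (y₁ j) (y₀ j)) (hA : eA P (y₁ 0) (y₁ 1) (y₁ 2) (y₁ 3) = 0)
    (hB : eB P (y₁ 0) (y₁ 1) (y₁ 2) (y₁ 3) = 0) :
    (H288.pt x₀ y₁, H288.pt x₀ y₀) ∈ SpecC K Q := by
  haveI : CharZero K := charZero_of_injective_algebraMap (algebraMap ℂ K).injective
  haveI : CharZero N := charZero_of_injective_algebraMap (algebraMap ℂ N).injective
  haveI : CharZero N₁ := charZero_of_injective_algebraMap (algebraMap ℂ N₁).injective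
  obtain ⟨φ₁, h1⟩ := (genS_of_val h0 h hA hB).exists_phi hx
  obtain ⟨φ₀, h2⟩ := h0.exists_phi hx
  rw [H288.pt_eq hx h1, H288.pt_eq hx h2]
  refine SpecC.single_of_gens hx.top ?_
  rintro _ ⟨j, rfl⟩
  rw [h1, h2]
  exact h j

end values

section pvalues

variable {N N₁ : Type} [Field N] [Algebra ℂ N] [Field N₁] [Algebra ℂ N₁] [Algebra N N₁]
  [IsScalarTower ℂ N N₁] {Q : H72.Plc N N₁} {P : Par}

/-- the pairs (a polynomial, its reduction) -/
def pvAlg (Q : H72.Plc N N₁) : Subalgebra ℂ (N₁[X] × N[X]) where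
  carrier := {w | PVal Q w.1 w.2}
  mul_mem' := fun h h' => PVal.mul h h'
  one_mem' := PVal.one
  add_mem' := fun h h' => PVal.add h h'
  zero_mem' := fun n => by
    change Q.Val ((0 : N₁[X]).coeff n) ((0 : N[X]).coeff n)
    rw [coeff_zero, coeff_zero]
    exact Q.val_zero
  algebraMap_mem' := fun r => by
    change PVal Q (C (algebraMap ℂ N₁ r)) (C (algebraMap ℂ N r))
    refine PVal.C ?_
    rw [IsScalarTower.algebraMap_apply ℂ N N₁]
    exact Q.val_const _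

/-- the first projection -/
noncomputable def pfst (Q : H72.Plc N N₁) : pvAlg Q →ₐ[ℂ] N₁[X] :=
  (AlgHom.fst ℂ N₁[X] N[X]).comp (pvAlg Q).val

/-- the second projection -/
noncomputable def psnd (Q : H72.Plc N N₁) : pvAlg Q →ₐ[ℂ] N[X] :=
  (AlgHom.snd ℂ N₁[X] N[X]).comp (pvAlg Q).val

theorem pval_of_pvAlg (w : pvAlg Q) : PVal Q (pfst Q w) (psnd Q w) := w.2

/-- the element of the algebra of the pairs -/
def pmk {x : N₁[X]} {a : N[X]} (h : PVal Q x a) : pvAlg Q := ⟨(x, a), h⟩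

theorem pval_fA {c₁ g₁ : Fin 4 → N₁[X]} {c g : Fin 4 → N[X]} {t₁ : N₁[X]} {t : N[X]}
    (hc : ∀ i, PVal Q (c₁ i) (c i)) (hg : ∀ i, PVal Q (g₁ i) (g i)) (ht : PVal Q t₁ t) :
    PVal Q (fA P c₁ g₁ t₁) (fA P c g t) := by
  have h := pval_of_pvAlg (fA P (fun i => pmk (hc i)) (fun i => pmk (hg i)) (pmk ht))
  rwa [map_fA, map_fA] at h

theorem pval_fB {c₁ g₁ : Fin 4 → N₁[X]} {c g : Fin 4 → N[X]} {t₁ : N₁[X]} {t : N[X]}
    (hc : ∀ i, PVal Q (c₁ i) (c i)) (hg : ∀ i, PVal Q (g₁ i) (g i)) (ht : PVal Q t₁ t) :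
    PVal Q (fB P c₁ g₁ t₁) (fB P c g t) := by
  have h := pval_of_pvAlg (fB P (fun i => pmk (hc i)) (fun i => pmk (hg i)) (pmk ht))
  rwa [map_fB, map_fB] at h

theorem pval_fG1 {c₁ g₁ : Fin 4 → N₁[X]} {c g : Fin 4 → N[X]} {t₁ : N₁[X]} {t : N[X]}
    (hc : ∀ i, PVal Q (c₁ i) (c i)) (hg : ∀ i, PVal Q (g₁ i) (g i)) (ht : PVal Q t₁ t) :
    PVal Q (fG1 P c₁ g₁ t₁) (fG1 P c g t) := by
  have h := pval_of_pvAlg (fG1 P (fun i => pmk (hc i)) (fun i => pmk (hg i)) (pmk ht))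
  rwa [map_fG1, map_fG1] at h

theorem pval_fG2 {c₁ g₁ : Fin 4 → N₁[X]} {c g : Fin 4 → N[X]} {t₁ : N₁[X]} {t : N[X]}
    (hc : ∀ i, PVal Q (c₁ i) (c i)) (hg : ∀ i, PVal Q (g₁ i) (g i)) (ht : PVal Q t₁ t) :
    PVal Q (fG2 P c₁ g₁ t₁) (fG2 P c g t) := by
  have h := pval_of_pvAlg (fG2 P (fun i => pmk (hc i)) (fun i => pmk (hg i)) (pmk ht))
  rwa [map_fG2, map_fG2] at h

theorem pval_phiH {δ q r t A B G G' : N₁[X]} {δ₀ q₀ r₀ t₀ A₀ B₀ G₀ G₀' : N[X]}
    (h1 : PVal Q δ δ₀) (h2 : PVal Q q q₀) (h3 : PVal Q r r₀) (h4 : PVal Q t t₀)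
    (h5 : PVal Q A A₀) (h6 : PVal Q B B₀) (h7 : PVal Q G G₀) (h8 : PVal Q G' G₀') :
    PVal Q (phiH P δ q r t A B G G') (phiH P δ₀ q₀ r₀ t₀ A₀ B₀ G₀ G₀') := by
  have h := pval_of_pvAlg (phiH P (pmk h1) (pmk h2) (pmk h3) (pmk h4) (pmk h5) (pmk h6) (pmk h7)
    (pmk h8))
  rwa [map_phiH, map_phiH] at h

theorem pval_pA {c₁ g₁ : Fin 4 → N₁} {c g : Fin 4 → N} (hc : ∀ i, Q.Val (c₁ i) (c i))
    (hg : ∀ i, Q.Val (g₁ i) (g i)) : PVal Q (pA P c₁ g₁) (pA P c g) :=
  pval_fA (fun i => PVal.C (hc i)) (fun i => PVal.C (hg i)) PVal.X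

theorem pval_pB {c₁ g₁ : Fin 4 → N₁} {c g : Fin 4 → N} (hc : ∀ i, Q.Val (c₁ i) (c i))
    (hg : ∀ i, Q.Val (g₁ i) (g i)) : PVal Q (pB P c₁ g₁) (pB P c g) :=
  pval_fB (fun i => PVal.C (hc i)) (fun i => PVal.C (hg i)) PVal.X

theorem pval_pG1 {c₁ g₁ : Fin 4 → N₁} {c g : Fin 4 → N} (hc : ∀ i, Q.Val (c₁ i) (c i))
    (hg : ∀ i, Q.Val (g₁ i) (g i)) : PVal Q (pG1 P c₁ g₁) (pG1 P c g) :=
  pval_fG1 (fun i => PVal.C (hc i)) (fun i => PVal.C (hg i)) PVal.X

theorem pval_pG2 {c₁ g₁ : Fin 4 → N₁} {c g : Fin 4 → N} (hc : ∀ i, Q.Val (c₁ i) (c i))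
    (hg : ∀ i, Q.Val (g₁ i) (g i)) : PVal Q (pG2 P c₁ g₁) (pG2 P c g) :=
  pval_fG2 (fun i => PVal.C (hc i)) (fun i => PVal.C (hg i)) PVal.X

theorem pval_pS {c₁ g₁ : Fin 4 → N₁} {c g : Fin 4 → N} (hc : ∀ i, Q.Val (c₁ i) (c i))
    (hg : ∀ i, Q.Val (g₁ i) (g i)) : PVal Q (pS P c₁ g₁) (pS P c g) :=
  pval_phiH (PVal.C (hc 0)) (PVal.C (hg 0)) (PVal.C (hg 1)) PVal.X (pval_pA hc hg)
    (pval_pB hc hg) (pval_pG1 hc hg) (pval_pG2 hc hg)

end pvalues

section jets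

open TrivSqZeroExt

variable {N N₁ : Type} [Field N] [Algebra ℂ N] [Field N₁] [Algebra ℂ N₁] [Algebra N N₁]
  [IsScalarTower ℂ N N₁]

/-- the pairs (a polynomial, its first order deformation) -/
def jAlg (Q : H72.Plc N N₁) {l : N₁} (hl : Q.Val l 0) :
    Subalgebra ℂ (N₁[X] × DualNumber N[X]) where
  carrier := {w | ∃ r, w.1 = w.2.fst.map (algebraMap N N₁) + C l * r ∧ PVal Q r w.2.snd}
  mul_mem' := by
    rintro ⟨f, a⟩ ⟨f', a'⟩ ⟨r, h1, h2⟩ ⟨r', h1', h2'⟩
    change f = _ at h1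
    change f' = _ at h1'
    refine ⟨a.fst.map (algebraMap N N₁) * r' + a'.fst.map (algebraMap N N₁) * r +
      C l * (r * r'), ?_, ?_⟩
    · change f * f' = (a * a').fst.map (algebraMap N N₁) + _
      rw [fst_mul, Polynomial.map_mul, h1, h1']
      ring
    · change PVal Q _ (a * a').snd
      rw [snd_mul, smul_eq_mul, MulOpposite.smul_eq_mul_unop, MulOpposite.unop_op]
      have h3 := (((PVal.map (P := Q) a.fst).mul h2').add ((PVal.map (P := Q) a'.fst).mul h2)).add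
        ((PVal.C hl).mul (h2.mul h2'))
      rw [C_0, zero_mul, add_zero] at h3
      rw [mul_comm a.snd]
      exact h3
  one_mem' := by
    refine ⟨0, ?_, ?_⟩
    · change (1 : N₁[X]) = (1 : DualNumber N[X]).fst.map (algebraMap N N₁) + _
      rw [fst_one, Polynomial.map_one, mul_zero, add_zero]
    · change PVal Q 0 (1 : DualNumber N[X]).snd
      rw [snd_one]
      exact (pvAlg Q).zero_mem
  add_mem' := by
    rintro ⟨f, a⟩ ⟨f', a'⟩ ⟨r, h1, h2⟩ ⟨r', h1', h2'⟩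
    change f = _ at h1
    change f' = _ at h1'
    refine ⟨r + r', ?_, ?_⟩
    · change f + f' = (a + a').fst.map (algebraMap N N₁) + _
      rw [fst_add, Polynomial.map_add, h1, h1']
      ring
    · change PVal Q _ (a + a').snd
      rw [snd_add]
      exact h2.add h2'
  zero_mem' := by
    refine ⟨0, ?_, ?_⟩
    · change (0 : N₁[X]) = (0 : DualNumber N[X]).fst.map (algebraMap N N₁) + _
      rw [fst_zero, Polynomial.map_zero, mul_zero, add_zero]
    · change PVal Q 0 (0 : DualNumber N[X]).snd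
      rw [snd_zero]
      exact (pvAlg Q).zero_mem
  algebraMap_mem' := by
    intro r
    refine ⟨0, ?_, ?_⟩
    · change C (algebraMap ℂ N₁ r) = (C (algebraMap ℂ N r) : N[X]).map (algebraMap N N₁) + _
      rw [Polynomial.map_C, mul_zero, add_zero, ← IsScalarTower.algebraMap_apply ℂ N N₁]
    · change PVal Q 0 (0 : N[X])
      exact (pvAlg Q).zero_mem

variable {Q : H72.Plc N N₁} {P : Par} {l : N₁} {hl : Q.Val l 0}

/-- the first projection -/
noncomputable def jfst (hl : Q.Val l 0) : jAlg Q hl →ₐ[ℂ] N₁[X] :=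
  (AlgHom.fst ℂ N₁[X] (DualNumber N[X])).comp (jAlg Q hl).val

/-- the second projection -/
noncomputable def jsnd (hl : Q.Val l 0) : jAlg Q hl →ₐ[ℂ] DualNumber N[X] :=
  (AlgHom.snd ℂ N₁[X] (DualNumber N[X])).comp (jAlg Q hl).val

theorem jet_of_jAlg (w : jAlg Q hl) : ∃ r, jfst hl w = (jsnd hl w).fst.map (algebraMap N N₁) +
    C l * r ∧ PVal Q r (jsnd hl w).snd := w.2

/-- a constant -/
noncomputable def jC (hl : Q.Val l 0) (a : N) : jAlg Q hl :=
  ⟨(C (algebraMap N N₁ a), inl (C a)), 0, by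
    change C (algebraMap N N₁ a) = (C a : N[X]).map (algebraMap N N₁) + _
    rw [Polynomial.map_C, mul_zero, add_zero], (pvAlg Q).zero_mem⟩

/-- a moving parameter -/
noncomputable def jM (hl : Q.Val l 0) (a : N) {y : N₁} {w : N} (hy : Q.Val y w) : jAlg Q hl :=
  ⟨(C (algebraMap N N₁ a + l * y), inl (C a) + inr (C w)), C y, by
    change C (algebraMap N N₁ a + l * y) =
      (inl (C a) + inr (C w) : DualNumber N[X]).fst.map (algebraMap N N₁) + _
    rw [fst_add, fst_inl, fst_inr, add_zero, Polynomial.map_C, C_add, C_mul], by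
    change PVal Q (C y) (inl (C a) + inr (C w) : DualNumber N[X]).snd
    rw [snd_add, snd_inl, snd_inr, zero_add]
    exact PVal.C hy⟩

/-- the variable -/
noncomputable def jX (hl : Q.Val l 0) : jAlg Q hl :=
  ⟨(X, inl X), 0, by
    change (X : N₁[X]) = (X : N[X]).map (algebraMap N N₁) + _
    rw [Polynomial.map_X, mul_zero, add_zero], (pvAlg Q).zero_mem⟩

end jets

section deriv

open TrivSqZeroExt

variable {R : Type*} [CommRing R] [Algebra ℂ R] (P : Par)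

/-- the four functions over the dual numbers -/
def dA (c g w : Fin 4 → R) (t : R) : DualNumber R :=
  fA P (fun i => inl (c i)) (fun i => inl (g i) + inr (w i)) (inl t)

def dB (c g w : Fin 4 → R) (t : R) : DualNumber R :=
  fB P (fun i => inl (c i)) (fun i => inl (g i) + inr (w i)) (inl t)

def dG1 (c g w : Fin 4 → R) (t : R) : DualNumber R :=
  fG1 P (fun i => inl (c i)) (fun i => inl (g i) + inr (w i)) (inl t)

def dG2 (c g w : Fin 4 → R) (t : R) : DualNumber R :=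
  fG2 P (fun i => inl (c i)) (fun i => inl (g i) + inr (w i)) (inl t)

theorem fst_dA (c g w : Fin 4 → R) (t : R) : (dA P c g w t).fst = fA P c g t := by
  have h := map_fA P (fstHom ℂ R R) (fun i => inl (c i)) (fun i => inl (g i) + inr (w i)) (inl t)
  simp only [fstHom_apply, fst_inl, fst_add, fst_inr, add_zero] at h
  exact h

theorem fst_dB (c g w : Fin 4 → R) (t : R) : (dB P c g w t).fst = fB P c g t := by
  have h := map_fB P (fstHom ℂ R R) (fun i => inl (c i)) (fun i => inl (g i) + inr (w i)) (inl t)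
  simp only [fstHom_apply, fst_inl, fst_add, fst_inr, add_zero] at h
  exact h

theorem fst_dG1 (c g w : Fin 4 → R) (t : R) : (dG1 P c g w t).fst = fG1 P c g t := by
  have h := map_fG1 P (fstHom ℂ R R) (fun i => inl (c i)) (fun i => inl (g i) + inr (w i)) (inl t)
  simp only [fstHom_apply, fst_inl, fst_add, fst_inr, add_zero] at h
  exact h

theorem fst_dG2 (c g w : Fin 4 → R) (t : R) : (dG2 P c g w t).fst = fG2 P c g t := by
  have h := map_fG2 P (fstHom ℂ R R) (fun i => inl (c i)) (fun i => inl (g i) + inr (w i)) (inl t)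
  simp only [fstHom_apply, fst_inl, fst_add, fst_inr, add_zero] at h
  exact h

theorem snd_sub_one (c g w : Fin 4 → R) (t : R) : (dB P c g w t).snd - c 2 * (dA P c g w t).snd =
    (t - g 2) * (dG1 P c g w t).snd - w 2 * fG1 P c g t := by
  have h := congrArg snd (fB_sub_one P (fun i => inl (c i)) (fun i => inl (g i) + inr (w i))
    (inl t : DualNumber R))
  change (dB P c g w t - inl (c 2) * dA P c g w t).snd =
    ((inl t - (inl (g 2) + inr (w 2))) * dG1 P c g w t).snd at h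
  simp only [snd_sub, snd_mul, fst_inl, snd_inl, fst_sub, fst_add, fst_inr, snd_add, snd_inr,
    smul_eq_mul, MulOpposite.smul_eq_mul_unop, MulOpposite.unop_op, zero_mul, add_zero, zero_add,
    zero_sub, fst_dG1] at h
  linear_combination h

theorem snd_sub_two (c g w : Fin 4 → R) (t : R) : (dB P c g w t).snd - c 3 * (dA P c g w t).snd =
    (t - g 3) * (dG2 P c g w t).snd - w 3 * fG2 P c g t := by
  have h := congrArg snd (fB_sub_two P (fun i => inl (c i)) (fun i => inl (g i) + inr (w i))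
    (inl t : DualNumber R))
  change (dB P c g w t - inl (c 3) * dA P c g w t).snd =
    ((inl t - (inl (g 3) + inr (w 3))) * dG2 P c g w t).snd at h
  simp only [snd_sub, snd_mul, fst_inl, snd_inl, fst_sub, fst_add, fst_inr, snd_add, snd_inr,
    smul_eq_mul, MulOpposite.smul_eq_mul_unop, MulOpposite.unop_op, zero_mul, add_zero, zero_add,
    zero_sub, fst_dG2] at h
  linear_combination h

/-- The derivative of `B - d A`. -/
theorem snd_det (c g w : Fin 4 → R) (t d : R) :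
    (dB P c g w t).snd - d * (dA P c g w t).snd =
      w 0 * (-(3 * (c 1 - d) * (g 0 ^ 2 * ((t - g 2) ^ 2 * (t - g 3) ^ 2))) +
        3 * (c 3 - d) * ((1 + g 0) ^ 2 * ((t - g 1) ^ 3 * (t - g 2))) +
        (1 + 2 * g 0) * ((t - g 1) * (t - g 2) * (t - g 3)) * hh P (c 0) t d) +
      w 1 * (-(3 * (c 3 - d) * ((1 + g 0) ^ 3 * ((t - g 1) ^ 2 * (t - g 2)))) -
        g 0 * (1 + g 0) * ((t - g 2) * (t - g 3)) * hh P (c 0) t d) +
      w 2 * (2 * (c 1 - d) * (g 0 ^ 3 * ((t - g 2) * (t - g 3) ^ 2)) -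
        (c 3 - d) * ((1 + g 0) ^ 3 * (t - g 1) ^ 3) -
        g 0 * (1 + g 0) * ((t - g 1) * (t - g 3)) * hh P (c 0) t d) +
      w 3 * (2 * (c 1 - d) * (g 0 ^ 3 * ((t - g 2) ^ 2 * (t - g 3))) +
        (c 2 - d) * e2 P (c 0) t -
        g 0 * (1 + g 0) * ((t - g 1) * (t - g 2)) * hh P (c 0) t d) := by
  have he2 : e2 P (inl (c 0) : DualNumber R) (inl t) = inl (e2 P (c 0) t) :=
    (map_e2 P (inlAlgHom ℂ R R) (c 0) t).symm
  have hmu : mu P (inl (c 0) : DualNumber R) = inl (mu P (c 0)) :=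
    (map_mu P (inlAlgHom ℂ R R) (c 0)).symm
  have h3 : (3 : DualNumber R) = inl 3 := (map_ofNat (inlAlgHom ℂ R R) 3).symm
  have h1 : (1 : DualNumber R) = inl 1 := (map_one (inlAlgHom ℂ R R)).symm
  unfold dA dB fA fB fM
  rw [he2, hmu, h3, h1]
  simp only [pow_succ, pow_zero, one_mul, snd_sub, snd_mul, snd_neg, fst_neg, fst_mul, fst_inl,
    snd_inl, fst_sub, fst_add, fst_inr, snd_add, snd_inr,
    smul_eq_mul, MulOpposite.smul_eq_mul_unop, MulOpposite.unop_op, zero_mul, mul_zero, add_zero,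
    zero_add, sub_zero, zero_sub, neg_zero]
  unfold hh
  ring

end deriv

section deform

open TrivSqZeroExt

variable {N N₁ : Type} [Field N] [Algebra ℂ N] [Field N₁] [Algebra ℂ N₁] [Algebra N N₁]
  [IsScalarTower ℂ N N₁] {Q : H72.Plc N N₁} {P : Par} {l : N₁}

/-- the nearby parameters -/
def near (l : N₁) (g : Fin 4 → N) (y : Fin 4 → N₁) : Fin 4 → N₁ :=
  fun i => algebraMap N N₁ (g i) + l * y i

/-- the constant parameters -/
def cst (N₁ : Type) [Field N₁] [Algebra N N₁] (c : Fin 4 → N) : Fin 4 → N₁ :=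
  fun i => algebraMap N N₁ (c i)

/-- the derivatives of the polynomials in the direction `w` -/
noncomputable def qA (P : Par) (c g w : Fin 4 → N) : N[X] :=
  (dA P (fun i => C (c i)) (fun i => C (g i)) (fun i => C (w i)) X).snd

noncomputable def qB (P : Par) (c g w : Fin 4 → N) : N[X] :=
  (dB P (fun i => C (c i)) (fun i => C (g i)) (fun i => C (w i)) X).snd

noncomputable def qG1 (P : Par) (c g w : Fin 4 → N) : N[X] :=
  (dG1 P (fun i => C (c i)) (fun i => C (g i)) (fun i => C (w i)) X).snd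

noncomputable def qG2 (P : Par) (c g w : Fin 4 → N) : N[X] :=
  (dG2 P (fun i => C (c i)) (fun i => C (g i)) (fun i => C (w i)) X).snd

/-- **First order deformation** of the polynomials. -/
theorem jet_pA (hl : Q.Val l 0) {c g w : Fin 4 → N} {y : Fin 4 → N₁}
    (hy : ∀ i, Q.Val (y i) (w i)) : ∃ r, pA P (cst N₁ c) (near l g y) =
      (pA P c g).map (algebraMap N N₁) + C l * r ∧ PVal Q r (qA P c g w) := by
  have h := jet_of_jAlg (fA P (fun i => jC hl (c i)) (fun i => jM hl (g i) (hy i)) (jX hl))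
  rw [map_fA, map_fA] at h
  obtain ⟨r, h1, h2⟩ := h
  refine ⟨r, ?_, h2⟩
  have h3 : (fA P (fun i => jsnd hl (jC hl (c i))) (fun i => jsnd hl (jM hl (g i) (hy i)))
      (jsnd hl (jX hl))).fst = pA P c g :=
    fst_dA P (fun i => C (c i)) (fun i => C (g i)) (fun i => C (w i)) X
  rw [h3] at h1
  exact h1

theorem jet_pB (hl : Q.Val l 0) {c g w : Fin 4 → N} {y : Fin 4 → N₁}
    (hy : ∀ i, Q.Val (y i) (w i)) : ∃ r, pB P (cst N₁ c) (near l g y) =
      (pB P c g).map (algebraMap N N₁) + C l * r ∧ PVal Q r (qB P c g w) := by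
  have h := jet_of_jAlg (fB P (fun i => jC hl (c i)) (fun i => jM hl (g i) (hy i)) (jX hl))
  rw [map_fB, map_fB] at h
  obtain ⟨r, h1, h2⟩ := h
  refine ⟨r, ?_, h2⟩
  have h3 : (fB P (fun i => jsnd hl (jC hl (c i))) (fun i => jsnd hl (jM hl (g i) (hy i)))
      (jsnd hl (jX hl))).fst = pB P c g :=
    fst_dB P (fun i => C (c i)) (fun i => C (g i)) (fun i => C (w i)) X
  rw [h3] at h1
  exact h1

theorem jet_pG1 (hl : Q.Val l 0) {c g w : Fin 4 → N} {y : Fin 4 → N₁}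
    (hy : ∀ i, Q.Val (y i) (w i)) : ∃ r, pG1 P (cst N₁ c) (near l g y) =
      (pG1 P c g).map (algebraMap N N₁) + C l * r ∧ PVal Q r (qG1 P c g w) := by
  have h := jet_of_jAlg (fG1 P (fun i => jC hl (c i)) (fun i => jM hl (g i) (hy i)) (jX hl))
  rw [map_fG1, map_fG1] at h
  obtain ⟨r, h1, h2⟩ := h
  refine ⟨r, ?_, h2⟩
  have h3 : (fG1 P (fun i => jsnd hl (jC hl (c i))) (fun i => jsnd hl (jM hl (g i) (hy i)))
      (jsnd hl (jX hl))).fst = pG1 P c g :=
    fst_dG1 P (fun i => C (c i)) (fun i => C (g i)) (fun i => C (w i)) X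
  rw [h3] at h1
  exact h1

theorem jet_pG2 (hl : Q.Val l 0) {c g w : Fin 4 → N} {y : Fin 4 → N₁}
    (hy : ∀ i, Q.Val (y i) (w i)) : ∃ r, pG2 P (cst N₁ c) (near l g y) =
      (pG2 P c g).map (algebraMap N N₁) + C l * r ∧ PVal Q r (qG2 P c g w) := by
  have h := jet_of_jAlg (fG2 P (fun i => jC hl (c i)) (fun i => jM hl (g i) (hy i)) (jX hl))
  rw [map_fG2, map_fG2] at h
  obtain ⟨r, h1, h2⟩ := h
  refine ⟨r, ?_, h2⟩
  have h3 : (fG2 P (fun i => jsnd hl (jC hl (c i))) (fun i => jsnd hl (jM hl (g i) (hy i)))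
      (jsnd hl (jX hl))).fst = pG2 P c g :=
    fst_dG2 P (fun i => C (c i)) (fun i => C (g i)) (fun i => C (w i)) X
  rw [h3] at h1
  exact h1

/-- The derivatives at a common zero. -/
theorem q_sub_one {c g w : Fin 4 → N} {β : N} (h : fG1 P c g β = 0) :
    (qB P c g w).eval β - c 2 * (qA P c g w).eval β = (β - g 2) * (qG1 P c g w).eval β := by
  have h1 := congrArg (eval β) (snd_sub_one P (fun i => (C (c i) : N[X])) (fun i => C (g i))
    (fun i => C (w i)) X)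
  rw [eval_sub, eval_mul, eval_C, eval_sub, eval_mul, eval_sub, eval_X, eval_C, eval_mul,
    eval_C] at h1
  have h2 : (fG1 P (fun i => (C (c i) : N[X])) (fun i => C (g i)) X).eval β = fG1 P c g β :=
    eval_pG1 P c g β
  rw [h2, h, mul_zero, sub_zero] at h1
  exact h1

theorem q_sub_two {c g w : Fin 4 → N} {β : N} (h : fG2 P c g β = 0) :
    (qB P c g w).eval β - c 3 * (qA P c g w).eval β = (β - g 3) * (qG2 P c g w).eval β := by
  have h1 := congrArg (eval β) (snd_sub_two P (fun i => (C (c i) : N[X])) (fun i => C (g i))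
    (fun i => C (w i)) X)
  rw [eval_sub, eval_mul, eval_C, eval_sub, eval_mul, eval_sub, eval_X, eval_C, eval_mul,
    eval_C] at h1
  have h2 : (fG2 P (fun i => (C (c i) : N[X])) (fun i => C (g i)) X).eval β = fG2 P c g β :=
    eval_pG2 P c g β
  rw [h2, h, mul_zero, sub_zero] at h1
  exact h1

theorem eval_e2 (δ β : N) : (e2 P (C δ) (X : N[X])).eval β = e2 P δ β := by
  rw [← evA_apply, map_e2, evA_C, evA_X]

theorem eval_hh (δ d β : N) : (hh P (C δ) (X : N[X]) (C d)).eval β = hh P δ β d := by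
  rw [← evA_apply, map_hh, evA_C, evA_X, evA_C]

/-- The derivative of `B - d A`, evaluated. -/
theorem q_det (c g w : Fin 4 → N) (β d : N) :
    (qB P c g w).eval β - d * (qA P c g w).eval β =
      w 0 * (-(3 * (c 1 - d) * (g 0 ^ 2 * ((β - g 2) ^ 2 * (β - g 3) ^ 2))) +
        3 * (c 3 - d) * ((1 + g 0) ^ 2 * ((β - g 1) ^ 3 * (β - g 2))) +
        (1 + 2 * g 0) * ((β - g 1) * (β - g 2) * (β - g 3)) * hh P (c 0) β d) +
      w 1 * (-(3 * (c 3 - d) * ((1 + g 0) ^ 3 * ((β - g 1) ^ 2 * (β - g 2)))) -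
        g 0 * (1 + g 0) * ((β - g 2) * (β - g 3)) * hh P (c 0) β d) +
      w 2 * (2 * (c 1 - d) * (g 0 ^ 3 * ((β - g 2) * (β - g 3) ^ 2)) -
        (c 3 - d) * ((1 + g 0) ^ 3 * (β - g 1) ^ 3) -
        g 0 * (1 + g 0) * ((β - g 1) * (β - g 3)) * hh P (c 0) β d) +
      w 3 * (2 * (c 1 - d) * (g 0 ^ 3 * ((β - g 2) ^ 2 * (β - g 3))) +
        (c 2 - d) * e2 P (c 0) β -
        g 0 * (1 + g 0) * ((β - g 1) * (β - g 2)) * hh P (c 0) β d) := by
  have h1 := congrArg (eval β) (snd_det P (fun i => (C (c i) : N[X])) (fun i => C (g i))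
    (fun i => C (w i)) X (C d))
  have h3 : (3 : N[X]) = C 3 := by rw [map_ofNat]
  have h2 : (2 : N[X]) = C 2 := by rw [map_ofNat]
  rw [h3, h2] at h1
  simp only [eval_sub, eval_add, eval_mul, eval_neg, eval_pow, eval_C, eval_X, eval_one, eval_hh,
    eval_e2] at h1
  exact h1

/-- **A cluster.** -/
theorem jet_cluster {F : N₁[X]} {F₀ H₀ D₀ : N[X]} {r : N₁[X]} {β : N} {e : ℕ} {ε : N₁}
    (hF : F = F₀.map (algebraMap N N₁) + C l * r) (hr : PVal Q r D₀)
    (hF₀ : F₀ = (X - C β) ^ e * H₀) (hε : ε ^ e = l) (hε0 : Q.Val ε 0) :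
    ∃ Fc : N₁[X], F.comp (C (algebraMap N N₁ β) + C ε * X) = C l * Fc ∧
      PVal Q Fc (C (H₀.eval β) * X ^ e + C (D₀.eval β)) := by
  set T : N₁[X] := C (algebraMap N N₁ β) + C ε * X with hT
  have hTv : PVal Q T (C β) := by
    have h := (PVal.C (Q.val_const β)).add ((PVal.C hε0).mul (PVal.X (P := Q)))
    rwa [C_0, zero_mul, add_zero] at h
  refine ⟨X ^ e * (H₀.map (algebraMap N N₁)).comp T + r.comp T, ?_, ?_⟩
  · rw [hF, hF₀, Polynomial.map_mul, Polynomial.map_pow, Polynomial.map_sub, Polynomial.map_X,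
      Polynomial.map_C, add_comp, mul_comp, mul_comp, pow_comp, sub_comp, X_comp, C_comp, C_comp]
    have h1 : T - C (algebraMap N N₁ β) = C ε * X := by
      rw [hT]
      ring
    rw [h1, mul_pow, ← C_pow, hε]
    ring
  · have h1 : PVal Q ((H₀.map (algebraMap N N₁)).comp T) (H₀.comp (C β)) :=
      (PVal.map H₀).comp hTv
    have h2 : PVal Q (r.comp T) (D₀.comp (C β)) := hr.comp hTv
    rw [comp_C] at h1 h2
    have h3 := ((PVal.X (P := Q)).pow e).mul h1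
    rw [mul_comm (X ^ e : N[X])] at h3
    exact h3.add h2

end deform

end Vale.Agent.P297.H279
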