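import Vale.Agent.P297.H288.Z3Pts

/-!
The charts of the surface with respect to the members of the pencil.
-/

set_option linter.unusedSectionVars false

namespace Vale.Agent.P297.H279

open Vale.Agent.P297 Vale.Agent.P297.H288

section defs

variable {R : Type*} [CommRing R] [Algebra ℂ R] (P : Par)

def m3 (δ : R) : R := algebraMap ℂ R (P.t 2) + algebraMap ℂ R (P.z 2) * δ + 3 * δ ^ 2

def m4 (δ : R) : R := algebraMap ℂ R (P.t 3) + algebraMap ℂ R (P.z 3) * δ + 3 * δ ^ 2

def m1 (δ : R) : R := algebraMap ℂ R (P.t 0) + algebraMap ℂ R (P.z 0) * δ -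
  (algebraMap ℂ R (P.t 2) + algebraMap ℂ R (P.z 2) * δ) * δ - 2 * δ ^ 3

def m2 (δ : R) : R := algebraMap ℂ R (P.t 1) + algebraMap ℂ R (P.z 1) * δ -
  (algebraMap ℂ R (P.t 3) + algebraMap ℂ R (P.z 3) * δ) * δ - 2 * δ ^ 3

def mu (δ : R) : R := m3 P δ + m4 P δ + 3 * δ

def e2 (δ b : R) : R := b ^ 3 - m3 P δ * b - m1 P δ

def e0 (δ d : R) : R := d ^ 3 - m4 P δ * d - m2 P δ

def hh (δ b d : R) : R := 3 * b * d + 3 * (b + d) + mu P δ

/-- the equation of the member of the pencil in its chart -/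
def FT (δ a b d τ : R) : R := a ^ 3 + τ ^ 2 * e2 P δ b + τ * e0 P δ d - a * τ * hh P δ b d

/-- the equation of the surface in the chart -/
def ES (δ a b d τ : R) : R := 9 * a ^ 2 +
  a * (τ * (6 * (b - δ) - 3 * (d - δ) - (algebraMap ℂ R (P.z 2) + algebraMap ℂ R (P.z 3)) - 9 * δ) +
    (6 * (d - δ) - 3 * (b - δ) - (algebraMap ℂ R (P.z 2) + algebraMap ℂ R (P.z 3)) - 9 * δ)) +
  τ ^ 2 * A2 P (b - δ) + τ * (-(algebraMap ℂ R (P.z 2) * (b - δ)) -
    algebraMap ℂ R (P.z 3) * (d - δ) - algebraMap ℂ R (P.z 0) - algebraMap ℂ R (P.z 1) +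
    3 * (b - δ) * (d - δ) - 3 * (b + d + δ) * (b + d - 2 * δ) - 3 * (b + d + δ) ^ 2 -
    9 * (b + d + δ)) + A0 P (d - δ)

theorem e2_eq (δ b : R) : e2 P δ b = B2 P (b - δ) + δ * A2 P (b - δ) := by
  unfold e2 m3 m1 B2 A2
  ring

theorem e0_eq (δ d : R) : e0 P δ d = B0 P (d - δ) + δ * A0 P (d - δ) := by
  unfold e0 m4 m2 B0 A0
  ring

variable {R' : Type*} [CommRing R'] [Algebra ℂ R'] (f : R →ₐ[ℂ] R')

theorem map_m3 (δ : R) : f (m3 P δ) = m3 P (f δ) := by
  simp only [m3, map_add, map_mul, map_pow, map_ofNat, AlgHom.commutes]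

theorem map_m4 (δ : R) : f (m4 P δ) = m4 P (f δ) := by
  simp only [m4, map_add, map_mul, map_pow, map_ofNat, AlgHom.commutes]

theorem map_m1 (δ : R) : f (m1 P δ) = m1 P (f δ) := by
  simp only [m1, map_add, map_sub, map_mul, map_pow, map_ofNat, AlgHom.commutes]

theorem map_m2 (δ : R) : f (m2 P δ) = m2 P (f δ) := by
  simp only [m2, map_add, map_sub, map_mul, map_pow, map_ofNat, AlgHom.commutes]

theorem map_mu (δ : R) : f (mu P δ) = mu P (f δ) := by
  simp only [mu, map_add, map_mul, map_ofNat, map_m3, map_m4]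

theorem map_e2 (δ b : R) : f (e2 P δ b) = e2 P (f δ) (f b) := by
  simp only [e2, map_sub, map_mul, map_pow, map_m3, map_m1]

theorem map_e0 (δ d : R) : f (e0 P δ d) = e0 P (f δ) (f d) := by
  simp only [e0, map_sub, map_mul, map_pow, map_m4, map_m2]

theorem map_hh (δ b d : R) : f (hh P δ b d) = hh P (f δ) (f b) (f d) := by
  simp only [hh, map_add, map_mul, map_ofNat, map_mu]

theorem map_FT (δ a b d τ : R) : f (FT P δ a b d τ) = FT P (f δ) (f a) (f b) (f d) (f τ) := by
  simp only [FT, map_add, map_sub, map_mul, map_pow, map_e2, map_e0, map_hh]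

theorem map_ES (δ a b d τ : R) : f (ES P δ a b d τ) = ES P (f δ) (f a) (f b) (f d) (f τ) := by
  simp only [ES, map_add, map_sub, map_mul, map_pow, map_neg, map_ofNat, map_A0, map_A2,
    AlgHom.commutes]

end defs

section fields

variable {N : Type*} [Field N] [Algebra ℂ N] (P : Par)

/-- the point of the chart -/
def chart (δ a b d τ : N) : Fin 4 → N := ![b + d + δ, a + d - δ, b + a / τ - δ, τ]

@[simp] theorem chart_zero (δ a b d τ : N) : chart δ a b d τ 0 = b + d + δ := rfl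

@[simp] theorem chart_one (δ a b d τ : N) : chart δ a b d τ 1 = a + d - δ := rfl

@[simp] theorem chart_two (δ a b d τ : N) : chart δ a b d τ 2 = b + a / τ - δ := rfl

@[simp] theorem chart_three (δ a b d τ : N) : chart δ a b d τ 3 = τ := rfl

/-- the equation of the surface in the chart -/
theorem eA_chart {δ a b d τ : N} (hτ : τ ≠ 0) :
    eA P (b + d + δ) (a + d - δ) (b + a / τ - δ) τ = ES P δ a b d τ := by
  unfold eA ES A2 A0 qQ
  field_simp
  ring

/-- the equation of the member of the pencil in the chart -/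
theorem eB_chart {δ a b d τ : N} (hτ : τ ≠ 0) :
    τ * (eB P (b + d + δ) (a + d - δ) (b + a / τ - δ) τ +
      δ * eA P (b + d + δ) (a + d - δ) (b + a / τ - δ) τ) = (1 + τ) * FT P δ a b d τ := by
  unfold eA eB FT hh e2 e0 mu m1 m2 m3 m4 A2 A0 B2 B0 qQ
  field_simp
  ring

/-- A point of both surfaces. -/
theorem chart_zero_of {δ a b d τ : N} (hτ : τ ≠ 0) (hF : FT P δ a b d τ = 0)
    (hE : ES P δ a b d τ = 0) :
    eA P (b + d + δ) (a + d - δ) (b + a / τ - δ) τ = 0 ∧
      eB P (b + d + δ) (a + d - δ) (b + a / τ - δ) τ = 0 := by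
  have h1 := eA_chart P (δ := δ) (a := a) (b := b) (d := d) hτ
  have h2 := eB_chart P (δ := δ) (a := a) (b := b) (d := d) hτ
  rw [hE] at h1
  rw [hF, h1, mul_zero, mul_zero, add_zero] at h2
  exact ⟨h1, (mul_eq_zero.1 h2).resolve_left hτ⟩

end fields

section pts

variable {K N N' : Type} [Field K] [Algebra ℂ K] [Field N] [Algebra ℂ N] [Field N'] [Algebra ℂ N']
  {P : Par} {x : Fin 4 → K}

/-- Change of the field of values, without any condition. -/
theorem map_pt' (hx : H288.IsFF P x) (y : Fin 4 → N) (σ : N →ₐ[ℂ] N') :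
    Finsupp.mapDomain (fun φ : K →ₐ[ℂ] N => σ.comp φ) (H288.pt x y) =
      H288.pt x (fun j => σ (y j)) := by
  by_cases h : ∃ φ : K →ₐ[ℂ] N, ∀ j, φ (x j) = y j
  · obtain ⟨φ, hφ⟩ := h
    rw [H288.pt_eq hx hφ, Finsupp.mapDomain_single]
    refine (H288.pt_eq hx fun j => ?_).symm
    rw [AlgHom.comp_apply, hφ]
  · have h' : ¬ ∃ φ : K →ₐ[ℂ] N', ∀ j, φ (x j) = σ (y j) := by
      rintro ⟨ψ, hψ⟩
      apply h
      have hr : ∀ k : K, ψ k ∈ σ.fieldRange := by
        intro k
        have h1 : (⊤ : IntermediateField ℂ K) ≤ σ.fieldRange.comap ψ := by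
          rw [← hx.top, IntermediateField.adjoin_le_iff]
          rintro _ ⟨j, rfl⟩
          exact ⟨y j, (hψ j).symm⟩
        exact h1 trivial
      let ψ' : K →ₐ[ℂ] σ.fieldRange := ψ.codRestrict σ.fieldRange.toSubalgebra hr
      let e : N ≃ₐ[ℂ] σ.fieldRange := AlgEquiv.ofInjectiveField σ
      refine ⟨e.symm.toAlgHom.comp ψ', fun j => ?_⟩
      apply e.injective
      change e (e.symm (ψ' (x j))) = e (y j)
      rw [AlgEquiv.apply_symm_apply]
      apply Subtype.ext
      change ψ (x j) = σ (y j)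
      exact hψ j
    unfold H288.pt
    rw [dif_neg h, dif_neg h', Finsupp.mapDomain_zero]

end pts

end Vale.Agent.P297.H279
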