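import Vale.Agent.P297.H521.Param
import Vale.Agent.P297.H212.Camp.Spec

/-!
Families of cycles with several rational parameters, and their degenerate members: a family which
is natural in the field is constant, and its specialisations at arbitrary (not necessarily generic)
parameters are equivalent to its generic members.
-/

set_option linter.unusedSectionVars false
set_option linter.style.haveILetI false

open IntermediateField Polynomial

namespace Vale.Agent.P297.H279

open Vale.Agent.P297 Vale.Agent.P297.Gen Vale.Agent.P297.H839 Vale.Agent.P297.H729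
open Vale.Agent.P297.H72 Vale.Agent.P297.H521 Vale.Agent.P297.H212.Camp Vale.Agent.P297.H516

section comp

variable {N N₁ N₂ : Type} [Field N] [Field N₁] [Field N₂] [Algebra N N₁] [Algebra N₁ N₂]
  [Algebra N N₂] [IsScalarTower N N₁ N₂] (P : Plc N N₁) (P' : Plc N₁ N₂)

/-- the valuation ring of the composition of two places -/
def compV : ValuationSubring N₂ where
  carrier := {x | ∃ y, P'.Val x y ∧ ∃ a, P.Val y a}
  mul_mem' := by
    rintro x x' ⟨y, hy, a, ha⟩ ⟨y', hy', a', ha'⟩
    exact ⟨_, hy.mul hy', _, ha.mul ha'⟩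
  one_mem' := ⟨1, P'.val_one, 1, P.val_one⟩
  add_mem' := by
    rintro x x' ⟨y, hy, a, ha⟩ ⟨y', hy', a', ha'⟩
    exact ⟨_, hy.add hy', _, ha.add ha'⟩
  zero_mem' := ⟨0, P'.val_zero, 0, P.val_zero⟩
  neg_mem' := by
    rintro x ⟨y, hy, a, ha⟩
    exact ⟨_, hy.neg, _, ha.neg⟩
  mem_or_inv_mem' := by
    intro x
    rcases P'.val_or x with ⟨y, hy⟩ | h
    · rcases P.val_or y with ⟨a, ha⟩ | ha
      · exact Or.inl ⟨y, hy, a, ha⟩
      · by_cases hy0 : y = 0
        · exact Or.inl ⟨y, hy, 0, by rw [hy0]; exact P.val_zero⟩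
        · exact Or.inr ⟨y⁻¹, hy.inv hy0, 0, ha⟩
    · exact Or.inr ⟨0, h, 0, P.val_zero⟩

theorem mem_compV {x : N₂} : x ∈ compV P P' ↔ ∃ y, P'.Val x y ∧ ∃ a, P.Val y a := Iff.rfl

theorem exists_compVal (x : compV P P') : ∃ a : N, ∃ y, P'.Val (x : N₂) y ∧ P.Val y a := by
  obtain ⟨y, hy, a, ha⟩ := (mem_compV P P').1 x.2
  exact ⟨a, y, hy, ha⟩

/-- the value of the composition -/
noncomputable def compFun (x : compV P P') : N := (exists_compVal P P' x).choose

theorem compFun_eq {x : compV P P'} {y : N₁} {a : N} (h : P'.Val (x : N₂) y) (h' : P.Val y a) :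
    compFun P P' x = a := by
  obtain ⟨z, hz, hz'⟩ := (exists_compVal P P' x).choose_spec
  have h1 := h.unique hz
  subst h1
  exact hz'.unique h'

/-- **Composition of places.** -/
noncomputable def comp : Plc N N₂ where
  V := compV P P'
  p :=
    { toFun := compFun P P'
      map_one' := compFun_eq P P' P'.val_one P.val_one
      map_mul' := by
        intro x x'
        obtain ⟨a, y, hy, ha⟩ := exists_compVal P P' x
        obtain ⟨a', y', hy', ha'⟩ := exists_compVal P P' x'
        rw [compFun_eq P P' hy ha, compFun_eq P P' hy' ha']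
        exact compFun_eq P P' (hy.mul hy') (ha.mul ha')
      map_zero' := compFun_eq P P' P'.val_zero P.val_zero
      map_add' := by
        intro x x'
        obtain ⟨a, y, hy, ha⟩ := exists_compVal P P' x
        obtain ⟨a', y', hy', ha'⟩ := exists_compVal P P' x'
        rw [compFun_eq P P' hy ha, compFun_eq P P' hy' ha']
        exact compFun_eq P P' (hy.add hy') (ha.add ha') }
  mem := by
    intro a
    refine (mem_compV P P').2 ⟨algebraMap N N₁ a, ?_, a, P.val_const a⟩
    rw [IsScalarTower.algebraMap_apply N N₁ N₂]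
    exact P'.val_const _
  const := by
    intro a
    refine compFun_eq P P' (y := algebraMap N N₁ a) ?_ (P.val_const a)
    change P'.Val (algebraMap N N₂ a) _
    rw [IsScalarTower.algebraMap_apply N N₁ N₂]
    exact P'.val_const _
  inv := by
    intro x hx
    obtain ⟨a, y, hy, ha⟩ := exists_compVal P P' x
    have h1 : compFun P P' x = a := compFun_eq P P' hy ha
    have h2 : a ≠ 0 := by
      rintro rfl
      exact hx h1
    have h3 : y ≠ 0 := ha.ne_zero h2
    exact (mem_compV P P').2 ⟨y⁻¹, hy.inv h3, a⁻¹, ha.inv h2⟩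

theorem comp_val {x : N₂} {y : N₁} {a : N} (h : P'.Val x y) (h' : P.Val y a) :
    (comp P P').Val x a :=
  ⟨(mem_compV P P').2 ⟨y, h, a, h'⟩, compFun_eq P P' h h'⟩

end comp

/-- the trivial place -/
def idPlc (N : Type) [Field N] : Plc N N where
  V := ⊤
  p := (⊤ : ValuationSubring N).subtype
  mem := fun _ => trivial
  const := fun _ => rfl
  inv := fun _ _ => trivial

section closed

variable {L L' : Type} [Field L] [Algebra ℂ L] [IsAlgClosed L] [Field L'] [Algebra ℂ L']
  [IsAlgClosed L']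

/-- The image of a closed field is closed. -/
theorem closed_map (g : L →ₐ[ℂ] L') {M : IntermediateField ℂ L}
    (hM : ∀ u, IsAlgebraic M u → u ∈ M) :
    ∀ u, IsAlgebraic (M.map g : IntermediateField ℂ L') u → u ∈ M.map g := by
  have h1 : IsAlgClosed M := by
    refine IsAlgClosed.of_exists_root _ fun p _ hirr => ?_
    obtain ⟨r, hr⟩ := exists_root_mem M hM p hirr.natDegree_pos
    exact ⟨r, hr⟩
  have h2 : IsAlgClosed (M.map g) :=
    IsAlgClosed.of_ringEquiv _ _ (IntermediateField.equivMap M g).toRingEquiv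
  intro u hu
  have h3 : Algebra.IsAlgebraic (M.map g) (IntermediateField.adjoin (M.map g) {u}) :=
    IntermediateField.isAlgebraic_adjoin_simple hu.isIntegral
  have h4 := IntermediateField.eq_bot_of_isAlgClosed_of_isAlgebraic
    (IntermediateField.adjoin (M.map g) {u})
  have h5 : u ∈ IntermediateField.adjoin (M.map g) {u} :=
    IntermediateField.mem_adjoin_simple_self _ u
  rw [h4, IntermediateField.mem_bot] at h5
  obtain ⟨y, hy⟩ := h5
  rw [← hy]
  exact y.2

/-- closures and embeddings -/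
theorem mem_clo_map (g : L →ₐ[ℂ] L') {M : IntermediateField ℂ L} {S : Set L} {x : L}
    (h : g x ∈ clo (M.map g) (g '' S)) : x ∈ clo M S := by
  have h1 : clo (M.map g) (g '' S) ≤ (clo M S).map g := by
    refine clo_le (closed_map g (clo_closed M S)) ?_ ?_
    · exact IntermediateField.map_mono g (le_clo M S)
    · rintro _ ⟨y, hy, rfl⟩
      exact ⟨y, subset_clo M S hy, rfl⟩
  obtain ⟨y, hy, hxy⟩ := h1 h
  rwa [g.injective (hxy : g y = g x)] at hy

theorem free_map (g : L →ₐ[ℂ] L') {F : IntermediateField ℂ L} {n : ℕ} {v : Fin n → L}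
    (hv : Free F v) : Free (F.map g) (fun i => g (v i)) := by
  intro i hi
  apply hv i
  apply mem_clo_map g
  rwa [← Set.image_comp]

end closed

/-- The image of the constants. -/
noncomputable def img (N N₁ : Type) [Field N] [Algebra ℂ N] [Field N₁] [Algebra ℂ N₁] [Algebra N N₁]
    [IsScalarTower ℂ N N₁] : IntermediateField ℂ N₁ :=
  (⊤ : IntermediateField ℂ N).map (IsScalarTower.toAlgHom ℂ N N₁)

theorem mem_img {N N₁ : Type} [Field N] [Algebra ℂ N] [Field N₁] [Algebra ℂ N₁] [Algebra N N₁]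
    [IsScalarTower ℂ N N₁] {x : N₁} : x ∈ img N N₁ ↔ ∃ a, algebraMap N N₁ a = x := by
  constructor
  · rintro ⟨a, -, ha⟩
    exact ⟨a, ha⟩
  · rintro ⟨a, ha⟩
    exact ⟨a, trivial, ha⟩

theorem img_closed {N N₁ : Type} [Field N] [Algebra ℂ N] [IsAlgClosed N] [Field N₁] [Algebra ℂ N₁]
    [Algebra N N₁] [IsScalarTower ℂ N N₁] [IsAlgClosed N₁] :
    ∀ u, IsAlgebraic (img N N₁) u → u ∈ img N N₁ :=
  closed_map _ fun _ _ => trivial

/-- **Several infinitesimals.** -/
theorem exists_big_plc (N : Type) [Field N] [Algebra ℂ N] [IsAlgClosed N] (n : ℕ) :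
    ∃ (N₁ : Type) (_ : Field N₁) (_ : Algebra ℂ N₁) (_ : Algebra N N₁)
      (_ : IsScalarTower ℂ N N₁) (_ : IsAlgClosed N₁) (P : Plc N N₁) (e : Fin n → N₁),
      (∀ i, P.Val (e i) 0) ∧ Free (img N N₁) e := by
  induction n with
  | zero =>
    exact ⟨N, inferInstance, inferInstance, inferInstance, inferInstance, inferInstance,
      idPlc N, Fin.elim0, fun i => i.elim0, fun i => i.elim0⟩
  | succ n ih =>
    obtain ⟨N₁, _, _, _, _, _, P, e, he, hind⟩ := ih
    obtain ⟨P', hP'⟩ := exists_eps (N := N₁) 0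
    haveI : IsScalarTower N N₁ (EpsField N₁) := inferInstance
    haveI : IsScalarTower ℂ N (EpsField N₁) := IsScalarTower.of_algebraMap_eq fun c => by
      rw [IsScalarTower.algebraMap_apply ℂ N₁ (EpsField N₁),
        IsScalarTower.algebraMap_apply ℂ N N₁, IsScalarTower.algebraMap_apply N N₁ (EpsField N₁)]
    let j : N₁ →ₐ[ℂ] EpsField N₁ := IsScalarTower.toAlgHom ℂ N₁ (EpsField N₁)
    have hj : ∀ x, j x = algebraMap N₁ (EpsField N₁) x := fun _ => rfl
    let x : Fin (n + 1) → EpsField N₁ := Fin.snoc (fun i => j (e i)) (epsVar N₁)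
    have hxl : x (Fin.last n) = epsVar N₁ := Fin.snoc_last _ _
    have hxc : ∀ i : Fin n, x i.castSucc = j (e i) := fun i => Fin.snoc_castSucc _ _ _
    have heps : epsVar N₁ ∉ img N₁ (EpsField N₁) := by
      intro h
      obtain ⟨a, ha⟩ := mem_img.1 h
      apply epsVar_transcendental N₁
      rw [← ha]
      exact isAlgebraic_algebraMap a
    have hjm : ∀ y, j y ∈ img N₁ (EpsField N₁) := fun y => mem_img.2 ⟨y, rfl⟩
    have himg : img N (EpsField N₁) = (img N N₁).map j := by
      apply le_antisymm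
      · intro y hy
        obtain ⟨a, rfl⟩ := mem_img.1 hy
        exact ⟨algebraMap N N₁ a, mem_img.2 ⟨a, rfl⟩,
          (IsScalarTower.algebraMap_apply N N₁ (EpsField N₁) a).symm⟩
      · rintro _ ⟨y, hy, rfl⟩
        obtain ⟨a, rfl⟩ := mem_img.1 (show y ∈ img N N₁ from hy)
        exact mem_img.2 ⟨a, IsScalarTower.algebraMap_apply N N₁ (EpsField N₁) a⟩
    have hle : img N (EpsField N₁) ≤ img N₁ (EpsField N₁) := by
      rw [himg]
      rintro _ ⟨y, -, rfl⟩
      exact hjm y
    refine ⟨EpsField N₁, inferInstance, inferInstance, inferInstance, inferInstance,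
      inferInstance, H279.comp P P', x, ?_, ?_⟩
    · intro i
      refine Fin.lastCases ?_ (fun i => ?_) i
      · rw [hxl]
        exact comp_val P P' hP' P.val_zero
      · rw [hxc]
        exact comp_val P P' (P'.val_const (e i)) (he i)
    · intro i
      refine Fin.lastCases ?_ (fun i => ?_) i
      · rw [hxl]
        intro h
        apply heps
        refine clo_le img_closed hle ?_ h
        rintro _ ⟨k, hk, rfl⟩
        obtain ⟨k, rfl⟩ : ∃ k' : Fin n, k = k'.castSucc := by
          revert hk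
          refine Fin.lastCases (fun hk => absurd rfl hk) (fun k' _ => ⟨k', rfl⟩) k
        rw [hxc]
        exact hjm _
      · rw [hxc]
        intro h
        set G : IntermediateField ℂ (EpsField N₁) :=
          clo (img N (EpsField N₁)) ((fun k => j (e k)) '' {i}ᶜ) with hG
        have h1 : j (e i) ∉ G := by
          intro h2
          apply hind i
          apply mem_clo_map j
          rw [← himg, ← Set.image_comp]
          exact h2
        have h2 : clo (img N (EpsField N₁)) (x '' {i.castSucc}ᶜ) ≤ clo G {epsVar N₁} := by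
          refine clo_le (clo_closed _ _) ((le_clo _ _).trans (le_clo G _)) ?_
          rintro _ ⟨k, hk, rfl⟩
          revert hk
          refine Fin.lastCases (fun _ => ?_) (fun k hk => ?_) k
          · rw [hxl]
            exact mem_clo_single _ _
          · rw [hxc]
            refine le_clo G _ (subset_clo _ _ ⟨k, ?_, rfl⟩)
            intro hki
            exact hk (by rw [Set.mem_singleton_iff.1 hki]; rfl)
        have h3 : epsVar N₁ ∈ clo G {j (e i)} := exchange (clo_closed _ _) (h2 h) h1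
        apply heps
        refine clo_single img_closed ?_ (hjm _) h3
        refine clo_le img_closed hle ?_
        rintro _ ⟨k, -, rfl⟩
        exact hjm _

/-- **Several infinitesimals in a given direction.** -/
theorem exists_dir_plc (N : Type) [Field N] [Algebra ℂ N] [IsAlgClosed N] {n : ℕ}
    (v₀ w : Fin n → N) :
    ∃ (N₁ : Type) (_ : Field N₁) (_ : Algebra ℂ N₁) (_ : Algebra N N₁)
      (_ : IsScalarTower ℂ N N₁) (_ : IsAlgClosed N₁) (P : Plc N N₁) (l : N₁) (y : Fin n → N₁),
      l ≠ 0 ∧ P.Val l 0 ∧ (∀ i, P.Val (y i) (w i)) ∧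
        Free (img N N₁) (fun i => algebraMap N N₁ (v₀ i) + l * y i) := by
  obtain ⟨P, hP⟩ := exists_eps (N := N) 0
  obtain ⟨N₁, _, _, _, _, _, P', e, he, hind⟩ := exists_big_plc (EpsField N) n
  letI : Algebra N N₁ :=
    ((algebraMap (EpsField N) N₁).comp (algebraMap N (EpsField N))).toAlgebra
  haveI : IsScalarTower N (EpsField N) N₁ := IsScalarTower.of_algebraMap_eq fun _ => rfl
  haveI : IsScalarTower ℂ N N₁ := IsScalarTower.of_algebraMap_eq fun c => by
    rw [IsScalarTower.algebraMap_apply ℂ (EpsField N) N₁,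
      IsScalarTower.algebraMap_apply ℂ N (EpsField N),
      IsScalarTower.algebraMap_apply N (EpsField N) N₁]
  let j : EpsField N →ₐ[ℂ] N₁ := IsScalarTower.toAlgHom ℂ (EpsField N) N₁
  have hjm : ∀ y, j y ∈ img (EpsField N) N₁ := fun y => mem_img.2 ⟨y, rfl⟩
  have hNm : ∀ y, algebraMap N N₁ y ∈ img (EpsField N) N₁ := fun y => hjm _
  have hl0 : epsVar N ≠ 0 := by
    intro h0
    apply epsVar_transcendental N
    rw [h0]
    exact isAlgebraic_zero
  have hl1 : j (epsVar N) ≠ 0 := (map_ne_zero j).2 hl0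
  refine ⟨N₁, inferInstance, inferInstance, inferInstance, inferInstance, inferInstance,
    H279.comp P P', j (epsVar N), fun i => algebraMap N N₁ (w i) + e i, hl1, ?_, fun i => ?_,
    fun i hi => ?_⟩
  · exact comp_val P P' (P'.val_const _) hP
  · have h1 : (H279.comp P P').Val (algebraMap N N₁ (w i)) (w i) := (H279.comp P P').val_const _
    have h2 := h1.add (comp_val P P' (he i) P.val_zero)
    rwa [add_zero] at h2
  · apply hind i
    set A := clo (img (EpsField N) N₁) (e '' {i}ᶜ) with hA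
    have hjA : ∀ y, j y ∈ A := fun y => le_clo _ _ (hjm y)
    have hNA : ∀ y, algebraMap N N₁ y ∈ A := fun y => le_clo _ _ (hNm y)
    have h1 : clo (img N N₁) ((fun i => algebraMap N N₁ (v₀ i) +
        j (epsVar N) * (algebraMap N N₁ (w i) + e i)) '' {i}ᶜ) ≤ A := by
      refine clo_le (clo_closed _ _) ?_ ?_
      · intro y hy
        obtain ⟨a, rfl⟩ := mem_img.1 hy
        exact hNA a
      · rintro _ ⟨l, hl, rfl⟩
        exact add_mem (hNA _) (mul_mem (hjA _) (add_mem (hNA _) (subset_clo _ _ ⟨l, hl, rfl⟩)))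
    have h2 := sub_mem (div_mem (sub_mem (h1 hi) (hNA (v₀ i))) (hjA (epsVar N))) (hNA (w i))
    have h3 : (algebraMap N N₁ (v₀ i) + j (epsVar N) * (algebraMap N N₁ (w i) + e i) -
        algebraMap N N₁ (v₀ i)) / j (epsVar N) - algebraMap N N₁ (w i) = e i := by
      rw [add_sub_cancel_left, mul_div_cancel_left₀ _ hl1, add_sub_cancel_left]
    rwa [h3] at h2

/-- **Degenerate members of natural families.** Let `V` be a family of cycles with base parameters
`c` and moving parameters `v`, natural for the embeddings of algebraically closed fields. If, for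
parameters `v₀ + l y` infinitely near to arbitrary parameters `v₀`, in any given direction `w`, and
independent over the constants, the member of the family specialises to the cycle `∑ k i φ i`, then
this cycle is equivalent to every generic member. -/
theorem multi_spec {K : Type} [Field K] [Algebra ℂ K] {r n : ℕ} {m : ℤ}
    (V : ∀ (L : Type) [Field L] [Algebra ℂ L] [IsAlgClosed L],
      (Fin r → L) → (Fin n → L) → ((K →ₐ[ℂ] L) →₀ ℤ))
    (hnat : ∀ (L L' : Type) [Field L] [Algebra ℂ L] [IsAlgClosed L] [Field L'] [Algebra ℂ L']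
      [IsAlgClosed L'] (g : L →ₐ[ℂ] L') (c : Fin r → L) (v : Fin n → L),
      Finsupp.mapDomain (fun φ : K →ₐ[ℂ] L => g.comp φ) (V L c v) =
        V L' (fun i => g (c i)) (fun i => g (v i)))
    {N : Type} [Field N] [Algebra ℂ N] [IsAlgClosed N] (c : Fin r → N) (v₀ w : Fin n → N)
    {ι : Type} [Fintype ι] (φ : ι → (K →ₐ[ℂ] N)) (k : ι → ℤ) {s : Set K}
    (hs : IntermediateField.adjoin ℂ s = ⊤)
    (H : ∀ (N₁ : Type) [Field N₁] [Algebra ℂ N₁] [Algebra N N₁] [IsScalarTower ℂ N N₁]
      [IsAlgClosed N₁] (P : Plc N N₁) (l : N₁) (y : Fin n → N₁), l ≠ 0 → P.Val l 0 →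
      (∀ i, P.Val (y i) (w i)) → Free (img N N₁) (fun i => algebraMap N N₁ (v₀ i) + l * y i) →
      ∃ φ₁ : ι → (K →ₐ[ℂ] N₁),
        V N₁ (fun i => algebraMap N N₁ (c i)) (fun i => algebraMap N N₁ (v₀ i) + l * y i) =
          ∑ i, Finsupp.single (φ₁ i) (k i) ∧ ∀ i, ∀ x ∈ s, P.Val (φ₁ i x) (φ i x))
    {F : IntermediateField ℂ N} (hc : ∀ i, c i ∈ F) {v : Fin n → N} (hv : Free F v) :
    ∑ i, Finsupp.single (φ i) (k i) - V N c v ∈ Rel m K N := by
  classical
  obtain ⟨N₁, _, _, _, _, _, P, l, y, hl0, hl, hy, hfree⟩ := exists_dir_plc N v₀ w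
  let j : N →ₐ[ℂ] N₁ := IsScalarTower.toAlgHom ℂ N N₁
  have hj : ∀ x, j x = algebraMap N N₁ x := fun _ => rfl
  obtain ⟨φ₁, hV, hval⟩ := H N₁ P l y hl0 hl hy hfree
  set u : Fin n → N₁ := fun i => algebraMap N N₁ (v₀ i) + l * y i with hu
  have hjm : ∀ y, j y ∈ img N N₁ := fun y => mem_img.2 ⟨y, rfl⟩
  -- the generic members over the big field
  have h1 : V N₁ (fun i => j (c i)) u - V N₁ (fun i => j (c i)) (fun i => j (v i)) ∈
      Rel m K N₁ := by
    refine multi_const (K := K) (m := m) (F.map j) (fun w => V N₁ (fun i => j (c i)) w) ?_ ?_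
      (free_map j hv)
    · intro g hg w
      rw [hnat N₁ N₁ g.toAlgHom]
      congr 1
      funext i
      exact hg _ ⟨c i, hc i, rfl⟩
    · intro i hi
      refine hfree i (clo_mono ?_ le_rfl hi)
      rintro _ ⟨y, -, rfl⟩
      exact hjm y
  rw [← hnat N N₁ j c v] at h1
  -- as a finite sum
  let ι' : Type := ι ⊕ (V N c v).support
  let Φ : ι' → (K →ₐ[ℂ] N) := Sum.elim φ (fun ψ => ψ.1)
  let Φ₁ : ι' → (K →ₐ[ℂ] N₁) := Sum.elim φ₁ (fun ψ => j.comp ψ.1)
  let κ : ι' → ℤ := Sum.elim k (fun ψ => -(V N c v) ψ.1)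
  have hsum : ∀ w : (K →ₐ[ℂ] N) →₀ ℤ,
      ∑ ψ : w.support, Finsupp.single ψ.1 (w ψ.1) = w := by
    intro w
    rw [Finset.sum_coe_sort w.support (fun ψ => Finsupp.single ψ (w ψ))]
    exact w.sum_single
  have h2 : ∑ i, Finsupp.single (Φ₁ i) (κ i) = V N₁ (fun i => j (c i)) u -
      Finsupp.mapDomain (fun φ : K →ₐ[ℂ] N => j.comp φ) (V N c v) := by
    rw [Fintype.sum_sum_type]
    have h3 : V N₁ (fun i => j (c i)) u = ∑ i, Finsupp.single (φ₁ i) (k i) := hV
    rw [h3, sub_eq_add_neg]
    congr 1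
    conv_rhs => rw [← hsum (V N c v)]
    rw [Finsupp.mapDomain_finsetSum, ← Finset.sum_neg_distrib]
    refine Finset.sum_congr rfl fun ψ _ => ?_
    rw [Finsupp.mapDomain_single, ← Finsupp.single_neg]
    rfl
  have h3 : ∑ i, Finsupp.single (Φ i) (κ i) =
      ∑ i, Finsupp.single (φ i) (k i) - V N c v := by
    rw [Fintype.sum_sum_type, sub_eq_add_neg]
    congr 1
    conv_rhs => rw [← hsum (V N c v)]
    rw [← Finset.sum_neg_distrib]
    refine Finset.sum_congr rfl fun ψ _ => ?_
    rw [← Finsupp.single_neg]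
    rfl
  rw [← h2] at h1
  rw [← h3]
  refine Rel.of_plc P κ Φ₁ Φ hs ?_ h1
  rintro (i | ψ) x hx
  · exact hval i x hx
  · exact P.val_const _

end Vale.Agent.P297.H279
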