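import Vale.Agent.P297.H279.Chart
import Vale.Agent.P297.H279.Spec

/-!
The family of the sections of the members of the pencil, with four parameters, which degenerate to
a line and three special curves.
-/

set_option linter.unusedSectionVars false
set_option linter.style.haveILetI false

open Polynomial

namespace Vale.Agent.P297.H279

open Vale.Agent.P297 Vale.Agent.P297.H288

section defs

variable {R : Type*} [CommRing R] [Algebra ℂ R] (P : Par)

/-- the common denominator -/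
def fM (g : Fin 4 → R) (t : R) : R := g 0 * (1 + g 0) * ((t - g 1) * (t - g 2) * (t - g 3))

def fA (c g : Fin 4 → R) (t : R) : R :=
  -(g 0 ^ 3 * ((t - g 2) ^ 2 * (t - g 3) ^ 2)) - e2 P (c 0) t * (t - g 3) +
    (1 + g 0) ^ 3 * ((t - g 1) ^ 3 * (t - g 2)) - 3 * (t + 1) * fM g t

def fB (c g : Fin 4 → R) (t : R) : R :=
  -(c 1 * (g 0 ^ 3 * ((t - g 2) ^ 2 * (t - g 3) ^ 2))) - c 2 * (e2 P (c 0) t * (t - g 3)) +
    c 3 * ((1 + g 0) ^ 3 * ((t - g 1) ^ 3 * (t - g 2))) + (3 * t + mu P (c 0)) * fM g t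

def fG1 (c g : Fin 4 → R) (t : R) : R :=
  (c 1 - c 2) * -(g 0 ^ 3 * ((t - g 2) * (t - g 3) ^ 2)) +
    (c 3 - c 2) * ((1 + g 0) ^ 3 * (t - g 1) ^ 3) +
    hh P (c 0) t (c 2) * (g 0 * (1 + g 0) * ((t - g 1) * (t - g 3)))

def fG2 (c g : Fin 4 → R) (t : R) : R :=
  (c 1 - c 3) * -(g 0 ^ 3 * ((t - g 2) ^ 2 * (t - g 3))) - (c 2 - c 3) * e2 P (c 0) t +
    hh P (c 0) t (c 3) * (g 0 * (1 + g 0) * ((t - g 1) * (t - g 2)))

/-- the form of degree `6` in `A`, `B`, `G₁`, `G₂` -/
def phiH (δ q r0 t A B G1 G2 : R) : R :=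
  9 * (1 + q) ^ 2 * q ^ 2 * (t - r0) ^ 2 * (G1 ^ 2 * G2 ^ 2 * A ^ 2) -
  (1 + q) * q * (t - r0) * (G1 ^ 3 * G2 ^ 2 * (6 * (A * (t - δ)) - 3 * (B - δ * A) -
    (algebraMap ℂ R (P.z 2) + algebraMap ℂ R (P.z 3)) * A - 9 * δ * A)) -
  (1 + q) * q ^ 4 * (t - r0) * (G1 * G2 * A ^ 3 * (6 * (B - δ * A) - 3 * (A * (t - δ)) -
    (algebraMap ℂ R (P.z 2) + algebraMap ℂ R (P.z 3)) * A - 9 * δ * A)) +
  G1 ^ 4 * G2 ^ 2 * A2 P (t - δ) +
  q ^ 3 * (G1 ^ 2 * G2 * A * (-(algebraMap ℂ R (P.z 2) * (t - δ) * A ^ 2) -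
    algebraMap ℂ R (P.z 3) * (A * (B - δ * A)) - algebraMap ℂ R (P.z 0) * A ^ 2 -
    algebraMap ℂ R (P.z 1) * A ^ 2 + 3 * (t - δ) * (A * (B - δ * A)) -
    3 * ((A * t + B + A * δ) * (A * t + B - 2 * δ * A)) - 3 * (A * t + B + A * δ) ^ 2 -
    9 * ((A * t + B + A * δ) * A))) +
  q ^ 6 * (A ^ 4 * (3 * (B - δ * A) ^ 2 - algebraMap ℂ R (P.z 3) * (A * (B - δ * A)) -
    algebraMap ℂ R (P.z 1) * A ^ 2))

/-- the equation of the points of the surface on the section -/
def fS (c g : Fin 4 → R) (t : R) : R :=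
  phiH P (c 0) (g 0) (g 1) t (fA P c g t) (fB P c g t) (fG1 P c g t) (fG2 P c g t)

theorem fB_sub_one (c g : Fin 4 → R) (t : R) :
    fB P c g t - c 2 * fA P c g t = (t - g 2) * fG1 P c g t := by
  unfold fB fA fG1 fM hh
  ring

theorem fB_sub_two (c g : Fin 4 → R) (t : R) :
    fB P c g t - c 3 * fA P c g t = (t - g 3) * fG2 P c g t := by
  unfold fB fA fG2 fM hh
  ring

/-- the relation of the section -/
theorem section_eq (c g : Fin 4 → R) (t : R) :
    -((1 + g 0) ^ 3 * (t - g 1) ^ 3 * fG2 P c g t) + fG1 P c g t * e2 P (c 0) t +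
      g 0 ^ 3 * ((fB P c g t - c 1 * fA P c g t) * ((t - g 2) * (t - g 3))) +
      g 0 * (1 + g 0) * (t - g 1) *
        ((3 * t + 3) * fB P c g t + (3 * t + mu P (c 0)) * fA P c g t) = 0 := by
  unfold fB fA fG1 fG2 fM hh
  ring

theorem phiH_smul (δ q r0 t A B G1 G2 k : R) :
    phiH P δ q r0 t (k * A) (k * B) (k * G1) (k * G2) = k ^ 6 * phiH P δ q r0 t A B G1 G2 := by
  unfold phiH
  ring

variable {R' : Type*} [CommRing R'] [Algebra ℂ R'] (f : R →ₐ[ℂ] R')

theorem map_fM (g : Fin 4 → R) (t : R) : f (fM g t) = fM (fun i => f (g i)) (f t) := by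
  simp only [fM, map_add, map_sub, map_mul, map_one]

theorem map_fA (c g : Fin 4 → R) (t : R) :
    f (fA P c g t) = fA P (fun i => f (c i)) (fun i => f (g i)) (f t) := by
  simp only [fA, map_add, map_sub, map_mul, map_neg, map_pow, map_one, map_ofNat, map_e2, map_fM]

theorem map_fB (c g : Fin 4 → R) (t : R) :
    f (fB P c g t) = fB P (fun i => f (c i)) (fun i => f (g i)) (f t) := by
  simp only [fB, map_add, map_sub, map_mul, map_neg, map_pow, map_one, map_ofNat, map_e2, map_fM,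
    map_mu]

theorem map_fG1 (c g : Fin 4 → R) (t : R) :
    f (fG1 P c g t) = fG1 P (fun i => f (c i)) (fun i => f (g i)) (f t) := by
  simp only [fG1, map_add, map_sub, map_mul, map_neg, map_pow, map_one, map_hh]

theorem map_fG2 (c g : Fin 4 → R) (t : R) :
    f (fG2 P c g t) = fG2 P (fun i => f (c i)) (fun i => f (g i)) (f t) := by
  simp only [fG2, map_add, map_sub, map_mul, map_neg, map_pow, map_one, map_hh, map_e2]

theorem map_phiH (δ q r0 t A B G1 G2 : R) : f (phiH P δ q r0 t A B G1 G2) =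
    phiH P (f δ) (f q) (f r0) (f t) (f A) (f B) (f G1) (f G2) := by
  simp only [phiH, map_add, map_sub, map_mul, map_neg, map_pow, map_one, map_ofNat, map_A2,
    AlgHom.commutes]

theorem map_fS (c g : Fin 4 → R) (t : R) :
    f (fS P c g t) = fS P (fun i => f (c i)) (fun i => f (g i)) (f t) := by
  simp only [fS, map_phiH, map_fA, map_fB, map_fG1, map_fG2]

end defs

section poly

variable {R : Type*} [CommRing R] [Algebra ℂ R] (P : Par)

noncomputable def pA (c g : Fin 4 → R) : R[X] := fA P (fun i => C (c i)) (fun i => C (g i)) X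

noncomputable def pB (c g : Fin 4 → R) : R[X] := fB P (fun i => C (c i)) (fun i => C (g i)) X

noncomputable def pG1 (c g : Fin 4 → R) : R[X] := fG1 P (fun i => C (c i)) (fun i => C (g i)) X

noncomputable def pG2 (c g : Fin 4 → R) : R[X] := fG2 P (fun i => C (c i)) (fun i => C (g i)) X

/-- The polynomial of the points of the surface on the section. -/
noncomputable def pS (c g : Fin 4 → R) : R[X] := fS P (fun i => C (c i)) (fun i => C (g i)) X

/-- the evaluation as a map of algebras -/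
noncomputable def evA (t : R) : R[X] →ₐ[ℂ] R := (aeval t).restrictScalars ℂ

@[simp] theorem evA_C (t a : R) : evA t (C a) = a := by
  change aeval t (C a) = a
  rw [aeval_C, Algebra.algebraMap_self, RingHom.id_apply]

@[simp] theorem evA_X (t : R) : evA t (X : R[X]) = t := by
  change aeval t X = t
  rw [aeval_X]

theorem evA_apply (t : R) (p : R[X]) : evA t p = p.eval t := by
  change aeval t p = p.eval t
  rw [coe_aeval_eq_eval]

/-- the substitution as a map of algebras -/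
noncomputable def cmA (p : R[X]) : R[X] →ₐ[ℂ] R[X] := (aeval p).restrictScalars ℂ

@[simp] theorem cmA_C (p : R[X]) (a : R) : cmA p (C a) = C a := by
  change aeval p (C a) = C a
  rw [aeval_C]
  rfl

@[simp] theorem cmA_X (p : R[X]) : cmA p (X : R[X]) = p := by
  change aeval p X = p
  rw [aeval_X]

theorem cmA_apply (p f : R[X]) : cmA p f = f.comp p := by
  change aeval p f = f.comp p
  rw [aeval_def, Polynomial.comp]
  rfl

@[simp] theorem eval_pA (c g : Fin 4 → R) (t : R) : (pA P c g).eval t = fA P c g t := by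
  rw [← evA_apply, pA, map_fA]
  simp only [evA_C, evA_X]

@[simp] theorem eval_pB (c g : Fin 4 → R) (t : R) : (pB P c g).eval t = fB P c g t := by
  rw [← evA_apply, pB, map_fB]
  simp only [evA_C, evA_X]

@[simp] theorem eval_pG1 (c g : Fin 4 → R) (t : R) : (pG1 P c g).eval t = fG1 P c g t := by
  rw [← evA_apply, pG1, map_fG1]
  simp only [evA_C, evA_X]

@[simp] theorem eval_pG2 (c g : Fin 4 → R) (t : R) : (pG2 P c g).eval t = fG2 P c g t := by
  rw [← evA_apply, pG2, map_fG2]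
  simp only [evA_C, evA_X]

@[simp] theorem eval_pS (c g : Fin 4 → R) (t : R) : (pS P c g).eval t = fS P c g t := by
  rw [← evA_apply, pS, map_fS]
  simp only [evA_C, evA_X]

variable {R' : Type*} [CommRing R'] [Algebra ℂ R'] (f : R →ₐ[ℂ] R')

theorem map_pA (c g : Fin 4 → R) :
    (pA P c g).map (f : R →+* R') = pA P (fun i => f (c i)) (fun i => f (g i)) := by
  have h : ∀ p : R[X], p.map (f : R →+* R') = mapAlgHom f p := fun _ => rfl
  rw [h, pA, map_fA]
  simp only [← h, Polynomial.map_C, Polynomial.map_X]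
  rfl

theorem map_pB (c g : Fin 4 → R) :
    (pB P c g).map (f : R →+* R') = pB P (fun i => f (c i)) (fun i => f (g i)) := by
  have h : ∀ p : R[X], p.map (f : R →+* R') = mapAlgHom f p := fun _ => rfl
  rw [h, pB, map_fB]
  simp only [← h, Polynomial.map_C, Polynomial.map_X]
  rfl

theorem map_pG1 (c g : Fin 4 → R) :
    (pG1 P c g).map (f : R →+* R') = pG1 P (fun i => f (c i)) (fun i => f (g i)) := by
  have h : ∀ p : R[X], p.map (f : R →+* R') = mapAlgHom f p := fun _ => rfl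
  rw [h, pG1, map_fG1]
  simp only [← h, Polynomial.map_C, Polynomial.map_X]
  rfl

theorem map_pG2 (c g : Fin 4 → R) :
    (pG2 P c g).map (f : R →+* R') = pG2 P (fun i => f (c i)) (fun i => f (g i)) := by
  have h : ∀ p : R[X], p.map (f : R →+* R') = mapAlgHom f p := fun _ => rfl
  rw [h, pG2, map_fG2]
  simp only [← h, Polynomial.map_C, Polynomial.map_X]
  rfl

theorem map_pS (c g : Fin 4 → R) :
    (pS P c g).map (f : R →+* R') = pS P (fun i => f (c i)) (fun i => f (g i)) := by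
  have h : ∀ p : R[X], p.map (f : R →+* R') = mapAlgHom f p := fun _ => rfl
  rw [h, pS, map_fS]
  simp only [← h, Polynomial.map_C, Polynomial.map_X]
  rfl

theorem pB_sub_one (c g : Fin 4 → R) :
    pB P c g - C (c 2) * pA P c g = (X - C (g 2)) * pG1 P c g := fB_sub_one P _ _ _

theorem pB_sub_two (c g : Fin 4 → R) :
    pB P c g - C (c 3) * pA P c g = (X - C (g 3)) * pG2 P c g := fB_sub_two P _ _ _

theorem pS_eq (c g : Fin 4 → R) : pS P c g =
    phiH P (C (c 0)) (C (g 0)) (C (g 1)) X (pA P c g) (pB P c g) (pG1 P c g) (pG2 P c g) := rfl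

theorem comp_pA (c g : Fin 4 → R) (p : R[X]) :
    (pA P c g).comp p = fA P (fun i => C (c i)) (fun i => C (g i)) p := by
  rw [← cmA_apply, pA, map_fA]
  simp only [cmA_C, cmA_X]

theorem comp_pB (c g : Fin 4 → R) (p : R[X]) :
    (pB P c g).comp p = fB P (fun i => C (c i)) (fun i => C (g i)) p := by
  rw [← cmA_apply, pB, map_fB]
  simp only [cmA_C, cmA_X]

theorem comp_pG1 (c g : Fin 4 → R) (p : R[X]) :
    (pG1 P c g).comp p = fG1 P (fun i => C (c i)) (fun i => C (g i)) p := by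
  rw [← cmA_apply, pG1, map_fG1]
  simp only [cmA_C, cmA_X]

theorem comp_pG2 (c g : Fin 4 → R) (p : R[X]) :
    (pG2 P c g).comp p = fG2 P (fun i => C (c i)) (fun i => C (g i)) p := by
  rw [← cmA_apply, pG2, map_fG2]
  simp only [cmA_C, cmA_X]

theorem comp_pS (c g : Fin 4 → R) (p : R[X]) : (pS P c g).comp p =
    phiH P (C (c 0)) (C (g 0)) (C (g 1)) p ((pA P c g).comp p) ((pB P c g).comp p)
      ((pG1 P c g).comp p) ((pG2 P c g).comp p) := by
  rw [← cmA_apply, pS_eq, map_phiH]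
  simp only [cmA_apply, C_comp, X_comp]

/-- The denominator is a cubic polynomial. -/
theorem pA_eq (c g : Fin 4 → R) : pA P c g =
    C (2 * g 0 ^ 3 * (g 2 + g 3) + g 3 - (1 + g 0) ^ 3 * (3 * g 1 + g 2) -
      3 * (g 0 * (1 + g 0)) * (1 - (g 1 + g 2 + g 3))) * X ^ 3 +
    C (-(g 0 ^ 3 * ((g 2 + g 3) ^ 2 + 2 * (g 2 * g 3))) + m3 P (c 0) +
      (1 + g 0) ^ 3 * (3 * g 1 ^ 2 + 3 * (g 1 * g 2)) -
      3 * (g 0 * (1 + g 0)) * (g 1 * g 2 + g 1 * g 3 + g 2 * g 3 - (g 1 + g 2 + g 3))) * X ^ 2 +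
    C (2 * (g 0 ^ 3 * ((g 2 + g 3) * (g 2 * g 3))) - (m3 P (c 0) * g 3 - m1 P (c 0)) -
      (1 + g 0) ^ 3 * (g 1 ^ 3 + 3 * (g 1 ^ 2 * g 2)) -
      3 * (g 0 * (1 + g 0)) * (g 1 * g 2 + g 1 * g 3 + g 2 * g 3 - g 1 * g 2 * g 3)) * X +
    C (-(g 0 ^ 3 * (g 2 * g 3) ^ 2) - m1 P (c 0) * g 3 + (1 + g 0) ^ 3 * (g 1 ^ 3 * g 2) +
      3 * (g 0 * (1 + g 0)) * (g 1 * g 2 * g 3)) := by
  have h3 : m3 P (C (c 0) : R[X]) = C (m3 P (c 0)) := by
    have h := map_m3 P (CAlgHom (R := ℂ) (A := R)) (c 0)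
    exact h.symm
  have h1 : m1 P (C (c 0) : R[X]) = C (m1 P (c 0)) := by
    have h := map_m1 P (CAlgHom (R := ℂ) (A := R)) (c 0)
    exact h.symm
  unfold pA fA fM e2
  rw [h3, h1]
  simp only [C_add, C_sub, C_mul, C_pow, C_neg, C_1, map_ofNat]
  ring

theorem natDegree_pA (c g : Fin 4 → R) : (pA P c g).natDegree ≤ 3 := by
  rw [pA_eq]
  exact natDegree_cubic_le

theorem algMap_eq (z : ℂ) : algebraMap ℂ R[X] z = C (algebraMap ℂ R z) := rfl

theorem m3_C (x : R) : m3 P (C x : R[X]) = C (m3 P x) :=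
  (map_m3 P (CAlgHom (R := ℂ) (A := R)) x).symm

theorem m1_C (x : R) : m1 P (C x : R[X]) = C (m1 P x) :=
  (map_m1 P (CAlgHom (R := ℂ) (A := R)) x).symm

theorem mu_C (x : R) : mu P (C x : R[X]) = C (mu P x) :=
  (map_mu P (CAlgHom (R := ℂ) (A := R)) x).symm

theorem natDegree_XC (x : R) : (X - C x : R[X]).natDegree ≤ 1 := natDegree_X_sub_C_le x

theorem deg_mul {p q : R[X]} {m n k : ℕ} (hp : p.natDegree ≤ m) (hq : q.natDegree ≤ n)
    (hk : m + n ≤ k) : (p * q).natDegree ≤ k := (natDegree_mul_le_of_le hp hq).trans hk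

theorem deg_pow {p : R[X]} {m n k : ℕ} (hp : p.natDegree ≤ m) (hk : n * m ≤ k) :
    (p ^ n).natDegree ≤ k := (natDegree_pow_le_of_le n hp).trans hk

theorem deg_add {p q : R[X]} {k : ℕ} (hp : p.natDegree ≤ k) (hq : q.natDegree ≤ k) :
    (p + q).natDegree ≤ k := natDegree_add_le_of_degree_le hp hq

theorem deg_sub {p q : R[X]} {k : ℕ} (hp : p.natDegree ≤ k) (hq : q.natDegree ≤ k) :
    (p - q).natDegree ≤ k := (natDegree_sub_le_of_le hp hq).trans (max_self k).le

theorem deg_neg {p : R[X]} {k : ℕ} (hp : p.natDegree ≤ k) : (-p).natDegree ≤ k := by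
  rwa [natDegree_neg]

theorem deg_C (x : R) (k : ℕ) : (C x : R[X]).natDegree ≤ k := by
  rw [natDegree_C]
  exact Nat.zero_le _

theorem natDegree_e2 (x : R) : (e2 P (C x) X : R[X]).natDegree ≤ 3 := by
  unfold e2
  rw [m3_C, m1_C]
  refine deg_sub (deg_sub (natDegree_X_pow_le 3) ?_) (deg_C _ _)
  exact deg_mul (deg_C _ 0) natDegree_X_le (by norm_num)

theorem natDegree_hh (x y : R) : (hh P (C x) X (C y) : R[X]).natDegree ≤ 1 := by
  unfold hh
  rw [mu_C]
  have h3 : (3 : R[X]) = C 3 := by rw [map_ofNat]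
  rw [h3]
  refine deg_add (deg_add ?_ ?_) (deg_C _ _)
  · exact deg_mul (m := 1) (n := 0) (deg_mul (m := 0) (deg_C _ 0) natDegree_X_le (by norm_num))
      (deg_C _ _) (by norm_num)
  · exact deg_mul (m := 0) (deg_C _ _) (deg_add natDegree_X_le (deg_C _ _)) (by norm_num)

theorem natDegree_pG1 (c g : Fin 4 → R) : (pG1 P c g).natDegree ≤ 3 := by
  unfold pG1 fG1
  have hC : (C (g 0) * (1 + C (g 0)) : R[X]) = C (g 0 * (1 + g 0)) := by
    simp only [C_mul, C_add, C_1]
  have hq : ((1 + C (g 0)) ^ 3 : R[X]) = C ((1 + g 0) ^ 3) := by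
    simp only [C_pow, C_add, C_1]
  rw [hC, hq, ← C_sub, ← C_sub, ← C_pow]
  have hX := fun x : R => natDegree_X_sub_C_le x
  refine deg_add (deg_add ?_ ?_) ?_
  · refine deg_mul (m := 0) (n := 3) (deg_C _ _) (deg_neg ?_) (by norm_num)
    exact deg_mul (m := 0) (n := 3) (deg_C _ _)
      (deg_mul (m := 1) (n := 2) (hX _) (deg_pow (hX _) (by norm_num)) (by norm_num)) (by norm_num)
  · exact deg_mul (m := 0) (n := 3) (deg_C _ _)
      (deg_mul (m := 0) (n := 3) (deg_C _ _) (deg_pow (hX _) (by norm_num)) (by norm_num))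
      (by norm_num)
  · exact deg_mul (m := 1) (n := 2) (natDegree_hh P _ _)
      (deg_mul (m := 0) (n := 2) (deg_C _ _) (deg_mul (hX _) (hX _) (by norm_num)) (by norm_num))
      (by norm_num)

theorem natDegree_pG2 (c g : Fin 4 → R) : (pG2 P c g).natDegree ≤ 3 := by
  unfold pG2 fG2
  have hC : (C (g 0) * (1 + C (g 0)) : R[X]) = C (g 0 * (1 + g 0)) := by
    simp only [C_mul, C_add, C_1]
  rw [hC, ← C_sub, ← C_sub, ← C_pow]
  have hX := fun x : R => natDegree_X_sub_C_le x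
  refine deg_add (deg_sub ?_ ?_) ?_
  · refine deg_mul (m := 0) (n := 3) (deg_C _ _) (deg_neg ?_) (by norm_num)
    exact deg_mul (m := 0) (n := 3) (deg_C _ _)
      (deg_mul (m := 2) (n := 1) (deg_pow (hX _) (by norm_num)) (hX _) (by norm_num)) (by norm_num)
  · exact deg_mul (m := 0) (n := 3) (deg_C _ _) (natDegree_e2 P _) (by norm_num)
  · exact deg_mul (m := 1) (n := 2) (natDegree_hh P _ _)
      (deg_mul (m := 0) (n := 2) (deg_C _ _) (deg_mul (hX _) (hX _) (by norm_num)) (by norm_num))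
      (by norm_num)

theorem natDegree_pB (c g : Fin 4 → R) : (pB P c g).natDegree ≤ 4 := by
  have h : pB P c g = (X - C (g 2)) * pG1 P c g + C (c 2) * pA P c g := by
    rw [← pB_sub_one]
    ring
  rw [h]
  exact deg_add (deg_mul (natDegree_X_sub_C_le _) (natDegree_pG1 P c g) (by norm_num))
    (deg_mul (m := 0) (n := 3) (deg_C _ _) (natDegree_pA P c g) (by norm_num))

end poly

section deg

variable {R : Type*} [CommRing R] [Algebra ℂ R] (P : Par)

/-- The degree of the form. -/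
theorem natDegree_phiH (δ q r0 : R) {A B G1 G2 : R[X]} (hA : A.natDegree ≤ 3)
    (hB : B.natDegree ≤ 4) (h1 : G1.natDegree ≤ 3) (h2 : G2.natDegree ≤ 3) :
    (phiH P (C δ) (C q) (C r0) X A B G1 G2).natDegree ≤ 20 := by
  have h3 : (3 : R[X]) = C 3 := by rw [map_ofNat]
  have h6 : (6 : R[X]) = C 6 := by rw [map_ofNat]
  have h9 : (9 : R[X]) = C 9 := by rw [map_ofNat]
  have h2' : (2 : R[X]) = C 2 := by rw [map_ofNat]
  have hq : (1 + C q : R[X]) = C (1 + q) := by rw [C_add, C_1]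
  have hX := fun x : R => natDegree_X_sub_C_le x
  have hAd : (A * (X - C δ)).natDegree ≤ 4 := deg_mul hA (hX _) (by norm_num)
  have hBd : (B - C δ * A).natDegree ≤ 4 :=
    deg_sub hB (deg_mul (m := 0) (n := 3) (deg_C _ _) hA (by norm_num))
  have hAX : (A * X + B + A * C δ).natDegree ≤ 4 :=
    deg_add (deg_add (deg_mul hA natDegree_X_le (by norm_num)) hB)
      (deg_mul (n := 0) hA (deg_C _ _) (by norm_num))
  have hAX' : (A * X + B - C 2 * C δ * A).natDegree ≤ 4 := by
    refine deg_sub (deg_add (deg_mul hA natDegree_X_le (by norm_num)) hB) ?_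
    rw [← C_mul]
    exact deg_mul (m := 0) (deg_C _ _) hA (by norm_num)
  have hCA : ∀ (x : R), (C x * A).natDegree ≤ 4 := fun x =>
    deg_mul (m := 0) (deg_C _ _) hA (by norm_num)
  unfold phiH
  rw [h3, h6, h9, h2', hq, algMap_eq, algMap_eq, algMap_eq]
  simp only [← C_add, ← C_mul, ← C_pow]
  refine deg_add (deg_add (deg_add (deg_sub (deg_sub ?_ ?_) ?_) ?_) ?_) ?_
  · refine deg_mul (m := 2) (n := 18)
      (deg_mul (m := 0) (n := 2) (deg_C _ _) (deg_pow (hX _) (by norm_num)) (by norm_num)) ?_ (by norm_num)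
    exact deg_mul (m := 12) (n := 6) (deg_mul (m := 6) (n := 6) (deg_pow h1 (by norm_num))
      (deg_pow h2 (by norm_num)) (by norm_num)) (deg_pow hA (by norm_num)) (by norm_num)
  · refine deg_mul (m := 1) (n := 19)
      (deg_mul (m := 0) (n := 1) (deg_C _ _) (hX _) (by norm_num)) ?_ (by norm_num)
    refine deg_mul (m := 15) (n := 4) (deg_mul (m := 9) (n := 6) (deg_pow h1 (by norm_num))
      (deg_pow h2 (by norm_num)) (by norm_num)) ?_ (by norm_num)
    refine deg_sub (deg_sub (deg_sub ?_ ?_) (hCA _)) (hCA _)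
    · exact deg_mul (m := 0) (deg_C _ _) hAd (by norm_num)
    · exact deg_mul (m := 0) (deg_C _ _) hBd (by norm_num)
  · refine deg_mul (m := 1) (n := 19)
      (deg_mul (m := 0) (n := 1) (deg_C _ _) (hX _) (by norm_num)) ?_ (by norm_num)
    refine deg_mul (m := 15) (n := 4) (deg_mul (m := 6) (n := 9)
      (deg_mul h1 h2 (by norm_num)) (deg_pow hA (by norm_num)) (by norm_num)) ?_ (by norm_num)
    refine deg_sub (deg_sub (deg_sub ?_ ?_) (hCA _)) (hCA _)
    · exact deg_mul (m := 0) (deg_C _ _) hBd (by norm_num)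
    · exact deg_mul (m := 0) (deg_C _ _) hAd (by norm_num)
  · refine deg_mul (m := 18) (n := 2) (deg_mul (m := 12) (n := 6) (deg_pow h1 (by norm_num))
      (deg_pow h2 (by norm_num)) (by norm_num)) ?_ (by norm_num)
    unfold A2
    rw [h3, algMap_eq, algMap_eq]
    refine deg_sub (deg_sub ?_ ?_) (deg_C _ _)
    · exact deg_mul (m := 0) (n := 2) (deg_C _ _) (deg_pow (hX _) (by norm_num)) (by norm_num)
    · exact deg_mul (m := 0) (n := 1) (deg_C _ _) (hX _) (by norm_num)
  · refine deg_mul (m := 0) (n := 20) (deg_C _ _) ?_ (by norm_num)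
    refine deg_mul (m := 12) (n := 8) (deg_mul (m := 9) (n := 3) (deg_mul (m := 6) (n := 3)
      (deg_pow h1 (by norm_num)) h2 (by norm_num)) hA (by norm_num)) ?_ (by norm_num)
    have hA2 : (A ^ 2).natDegree ≤ 6 := deg_pow hA (by norm_num)
    have hCA2 : ∀ x : R, (C x * A ^ 2).natDegree ≤ 8 := fun x =>
      deg_mul (m := 0) (deg_C _ _) hA2 (by norm_num)
    have hABd : (A * (B - C δ * A)).natDegree ≤ 7 := deg_mul hA hBd (by norm_num)
    refine deg_sub (deg_sub (deg_sub (deg_add (deg_sub (deg_sub (deg_sub ?_ ?_) (hCA2 _)) (hCA2 _))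
      ?_) ?_) ?_) ?_
    · refine deg_neg ?_
      exact deg_mul (m := 1) (deg_mul (m := 0) (deg_C _ _) (hX _) (by norm_num)) hA2 (by norm_num)
    · exact deg_mul (m := 0) (deg_C _ _) hABd (by norm_num)
    · exact deg_mul (m := 1) (deg_mul (m := 0) (deg_C _ _) (hX _) (by norm_num)) hABd (by norm_num)
    · refine deg_mul (m := 0) (n := 8) (deg_C _ _) ?_ (by norm_num)
      have := deg_mul (k := 8) hAX hAX' (by norm_num)
      rwa [← C_mul] at this
    · exact deg_mul (m := 0) (n := 8) (deg_C _ _) (deg_pow hAX (by norm_num)) (by norm_num)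
    · exact deg_mul (m := 0) (n := 8) (deg_C _ _) (deg_mul hAX hA (by norm_num)) (by norm_num)
  · refine deg_mul (m := 0) (n := 20) (deg_C _ _) ?_ (by norm_num)
    refine deg_mul (m := 12) (n := 8) (deg_pow hA (by norm_num)) ?_ (by norm_num)
    have hA2 : (A ^ 2).natDegree ≤ 6 := deg_pow hA (by norm_num)
    refine deg_sub (deg_sub ?_ ?_) ?_
    · exact deg_mul (m := 0) (n := 8) (deg_C _ _) (deg_pow hBd (by norm_num)) (by norm_num)
    · exact deg_mul (m := 0) (n := 7) (deg_C _ _) (deg_mul hA hBd (by norm_num)) (by norm_num)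
    · exact deg_mul (m := 0) (n := 6) (deg_C _ _) hA2 (by norm_num)

theorem natDegree_pS (c g : Fin 4 → R) : (pS P c g).natDegree ≤ 20 := by
  rw [pS_eq]
  exact natDegree_phiH P _ _ _ (natDegree_pA P c g) (natDegree_pB P c g) (natDegree_pG1 P c g)
    (natDegree_pG2 P c g)

end deg

section points

variable {N : Type*} [Field N] [Algebra ℂ N] (P : Par)

noncomputable def oa (c g : Fin 4 → N) (t : N) : N :=
  -((1 + g 0) * (t - g 1) * (fG1 P c g t * fG2 P c g t)) / (g 0 ^ 2 * fA P c g t ^ 2)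

noncomputable def ot (c g : Fin 4 → N) (t : N) : N :=
  fG1 P c g t ^ 2 * fG2 P c g t / (g 0 ^ 3 * fA P c g t ^ 3)

/-- The point of the section. -/
noncomputable def oo (c g : Fin 4 → N) (t : N) : Fin 4 → N :=
  chart (c 0) (oa P c g t) t (fB P c g t / fA P c g t) (ot P c g t)

theorem map_oo {N' : Type*} [Field N'] [Algebra ℂ N'] (f : N →ₐ[ℂ] N') (c g : Fin 4 → N) (t : N) :
    (fun j => f (oo P c g t j)) = oo P (fun i => f (c i)) (fun i => f (g i)) (f t) := by
  have ha : f (oa P c g t) = oa P (fun i => f (c i)) (fun i => f (g i)) (f t) := by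
    simp only [oa, map_div₀, map_neg, map_mul, map_add, map_sub, map_pow, map_one, map_fG1, map_fG2,
      map_fA]
  have ht : f (ot P c g t) = ot P (fun i => f (c i)) (fun i => f (g i)) (f t) := by
    simp only [ot, map_div₀, map_mul, map_pow, map_fG1, map_fG2, map_fA]
  unfold oo chart
  funext j
  fin_cases j
  · simp [map_fB, map_fA]
  · simp [map_fB, map_fA, ha]
  · simp [ha, ht]
  · simp [ht]

/-- The sections lie on the member of the pencil. -/
theorem FT_oo {c g : Fin 4 → N} {t : N} (hA : fA P c g t ≠ 0) (hq : g 0 ≠ 0)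
    (hv : ∀ X : N, e0 P (c 0) X = (X - c 1) * (X - c 2) * (X - c 3)) :
    FT P (c 0) (oa P c g t) t (fB P c g t / fA P c g t) (ot P c g t) = 0 := by
  have h1 := fB_sub_one P c g t
  have h2 := fB_sub_two P c g t
  have h3 := section_eq P c g t
  unfold FT
  rw [hv]
  unfold oa ot hh
  set A := fA P c g t with hAd
  set B := fB P c g t with hBd
  set G1 := fG1 P c g t with hG1
  set G2 := fG2 P c g t with hG2
  set E := e2 P (c 0) t with hE
  set q := g 0 with hqd
  have h4 : B / A - c 2 = (t - g 2) * G1 / A := by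
    rw [eq_div_iff hA, sub_mul, div_mul_cancel₀ _ hA]
    exact h1
  have h5 : B / A - c 3 = (t - g 3) * G2 / A := by
    rw [eq_div_iff hA, sub_mul, div_mul_cancel₀ _ hA]
    exact h2
  rw [h4, h5]
  field_simp
  linear_combination (G1 ^ 3 * G2 ^ 2) * h3

/-- The form and the equation of the surface. -/
theorem phiH_eq {δ q r0 t A B G1 G2 : N} (hA : A ≠ 0) (hq : q ≠ 0) :
    phiH P δ q r0 t A B G1 G2 = q ^ 6 * A ^ 6 *
      ES P δ (-((1 + q) * (t - r0) * (G1 * G2)) / (q ^ 2 * A ^ 2)) t (B / A)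
        (G1 ^ 2 * G2 / (q ^ 3 * A ^ 3)) := by
  unfold phiH ES A0
  field_simp
  ring

theorem fS_eq {c g : Fin 4 → N} {t : N} (hA : fA P c g t ≠ 0) (hq : g 0 ≠ 0) :
    fS P c g t = g 0 ^ 6 * fA P c g t ^ 6 *
      ES P (c 0) (oa P c g t) t (fB P c g t / fA P c g t) (ot P c g t) :=
  phiH_eq P hA hq

/-- **The points of the surface on the section.** -/
theorem oo_on {c g : Fin 4 → N} {t : N} (hS : fS P c g t = 0) (hA : fA P c g t ≠ 0)
    (hq : g 0 ≠ 0) (ht : ot P c g t ≠ 0)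
    (hv : ∀ X : N, e0 P (c 0) X = (X - c 1) * (X - c 2) * (X - c 3)) :
    eA P (oo P c g t 0) (oo P c g t 1) (oo P c g t 2) (oo P c g t 3) = 0 ∧
      eB P (oo P c g t 0) (oo P c g t 1) (oo P c g t 2) (oo P c g t 3) = 0 := by
  refine chart_zero_of P ht (FT_oo P hA hq hv) ?_
  have h1 := fS_eq P hA hq
  rw [hS] at h1
  exact (mul_eq_zero.1 h1.symm).resolve_left
    (mul_ne_zero (pow_ne_zero _ hq) (pow_ne_zero _ hA))

end points

section cycle

variable {K : Type} [Field K] [Algebra ℂ K] (P : Par) (x₀ : Fin 4 → K)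

/-- **The family of the cycles.** -/
noncomputable def fam {N : Type} [Field N] [Algebra ℂ N] (c g : Fin 4 → N) :
    (K →ₐ[ℂ] N) →₀ ℤ :=
  ((pS P c g).roots.map fun t => H288.pt x₀ (oo P c g t)).sum

theorem mapDomain_multiset_sum {α β : Type} (f : α → β) (s : Multiset (α →₀ ℤ)) :
    Finsupp.mapDomain f s.sum = (s.map (Finsupp.mapDomain f)).sum :=
  map_multiset_sum (Finsupp.mapDomain.addMonoidHom f) s

/-- The family is natural. -/
theorem map_fam {P : Par} {x₀ : Fin 4 → K} (hx : H288.IsFF P x₀) {N N' : Type} [Field N]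
    [Algebra ℂ N] [IsAlgClosed N] [Field N'] [Algebra ℂ N'] (f : N →ₐ[ℂ] N') (c g : Fin 4 → N) :
    Finsupp.mapDomain (fun φ : K →ₐ[ℂ] N => f.comp φ) (fam P x₀ c g) =
      fam P x₀ (fun i => f (c i)) (fun i => f (g i)) := by
  unfold fam
  have h1 : (pS P (fun i => f (c i)) fun i => f (g i)).roots = (pS P c g).roots.map f := by
    rw [← map_pS P f]
    exact ((IsAlgClosed.splits (pS P c g)).roots_map (f : N →+* N')).trans rfl
  rw [mapDomain_multiset_sum, h1, Multiset.map_map, Multiset.map_map]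
  congr 1
  refine Multiset.map_congr rfl fun t _ => ?_
  rw [Function.comp_apply, Function.comp_apply, map_pt' hx, map_oo]

end cycle

section reduction

variable {N N₁ : Type} [Field N] [Algebra ℂ N] [Field N₁] [Algebra ℂ N₁] [Algebra N N₁]
  [IsScalarTower ℂ N N₁] (Q : H72.Plc N N₁)

/-- the pairs (an element, its value) -/
def valAlg : Subalgebra ℂ (N₁ × N) where
  carrier := {w | Q.Val w.1 w.2}
  mul_mem' := fun h h' => H72.Plc.Val.mul h h'
  one_mem' := Q.val_one
  add_mem' := fun h h' => H72.Plc.Val.add h h'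
  zero_mem' := Q.val_zero
  algebraMap_mem' := fun r => by
    change Q.Val (algebraMap ℂ N₁ r) (algebraMap ℂ N r)
    rw [IsScalarTower.algebraMap_apply ℂ N N₁]
    exact Q.val_const _

end reduction

end Vale.Agent.P297.H279
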